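import Vale.Agent.P004Z.EF.Lat
import Vale.Agent.P022.H236.L3.Te
import Vale.Agent.P027H.Wp

/-! # P004, block GZ, row EF: the modular parametrisation (statements) -/

set_option autoImplicit false

open UpperHalfPlane CongruenceSubgroup Function.Periodic
open scoped MatrixGroups

noncomputable section

namespace Vale.Agent.P004Z.EF

open P004N Vale.Agent.P022.H218.L3 Vale.Agent.P022.H231.L3 Vale.Agent.P022.H236.L3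
  Vale.Agent.P022.H542.L3
open Vale.Agent.P027H (IsLat wp dwp g2 g3)

/-- `x` has the value `c` at `τ` (the text of `P022K.Sh.MVal`) -/
def Val (τ : ℍ) (x : Mer) (c : ℂ) : Prop := ∃ g h : Hol, (h : ℍ → ℂ) τ ≠ 0 ∧
  x * algebraMap Hol Mer h = algebraMap Hol Mer g ∧ (g : ℍ → ℂ) τ = c * (h : ℍ → ℂ) τ

/-- `j(N τ)` -/
def jN (N : ℕ) (hN : 0 < N) : Mer := pbz !![(N : ℤ), 0; 0, 1] (diag_pos hN) jM

/-- the coefficients of the L-function of `y² = x³ + A x + B` (the text of `P004M.TE.al`) -/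
def al (A B : ℤ) (l : ℕ) : ℤ :=
  (⟨0, 0, 0, A * (1 : ℤ) ^ 2, B * (1 : ℤ) ^ 3⟩ : WeierstrassCurve ℚ).LFunction l

/-- all coefficients are rational -/
def RatS (s : LS) : Prop := ∀ n, ∃ r : ℚ, s.coeff n = r

/-- **the modular parametrisation** `τ ↦ (x : y) = (℘(I τ), ℘'(I τ) / 2)` of
`y² = x³ + A x + B` by `X₀(N)`, where `w I = ∑ a n / n q ^ n` and `Λ` is the group of periods -/
structure Par (N : ℕ) (a : ℕ → ℤ) (A B : ℤ) (w : ℕ) (Λ : Submodule ℤ ℂ) (I : ℍ → ℂ) (x y : Mer) :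
    Prop where
  wpos : 0 < w
  I_eq : ∀ τ, I τ = Pr (fun n => (a n : ℂ)) τ / w
  lat : IsLat Λ
  per : ∀ z, z ∈ Λ ↔ ∃ γ ∈ Gamma0 N, ∀ τ, I (γ • τ) - I τ = z
  g2_eq : g2 Λ = -4 * A
  g3_eq : g3 Λ = -4 * B
  disc : 4 * A ^ 3 + 27 * B ^ 2 ≠ 0
  xm : x ∈ MF (Gamma0 N)
  ym : y ∈ MF (Gamma0 N)
  xv : ∀ τ, I τ ∉ Λ → Val τ x (wp Λ (I τ))
  yv : ∀ τ, I τ ∉ Λ → Val τ y (dwp Λ (I τ) / 2)
  xq : ∃ s, ExM 1 s x ∧ RatS s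
  yq : ∃ s, ExM 1 s y ∧ RatS s
  mat : {p : ℕ | p.Prime ∧ al A B p ≠ a p}.Finite

/-- **row EF**: newforms with integer coefficients -/
def PAR : Prop := ∀ (N : ℕ) (f : ℍ → ℂ) (a : ℕ → ℤ) (ε : ℝ), NF N f (fun n => (a n : ℝ)) ε →
  ∃ A B w Λ I x y, Par N a A B w Λ I x y

/-- every eigenform with integer coefficients comes from such a newform -/
def NEW : Prop := ∀ (N : ℕ) (f : ℍ → ℂ) (a : ℕ → ℤ), EF N f a →
  ∃ (M : ℕ) (g : ℍ → ℂ) (b : ℕ → ℤ) (ε : ℝ), NF M g (fun n => (b n : ℝ)) ε ∧ M ∣ N ∧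
    (∀ n : ℕ, n.Coprime N → b n = a n) ∧
    ∀ p : ℕ, p.Prime → p ∣ M → ¬ p ^ 2 ∣ M → ALw M p g (-(b p : ℝ))

/-- invariant meromorphic functions are quotients of modular forms -/
def QUOT : Prop := ∀ (Γ : Subgroup SL(2, ℤ)) [Γ.FiniteIndex] (F : ℍ → ℂ),
  (∀ γ ∈ Γ, ∀ τ, F (γ • τ) = F τ) → (∀ τ : ℍ, MeromorphicAt (F ∘ ofComplex) τ) →
  (∀ g : SL(2, ℤ), ∃ (h : ℕ) (φ : ℂ → ℂ), 0 < h ∧ MeromorphicAt φ 0 ∧
    ∀ τ : ℍ, F (g • τ) = φ (qParam h τ)) →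
  ∃ x ∈ MF Γ, ∀ τ : ℍ, AnalyticAt ℂ (F ∘ ofComplex) τ → Val τ x (F τ)

/-- `ℂ(X₀(N)) = ℂ(j, j_N)` -/
def GEN : Prop := ∀ (N : ℕ) (hN : 0 < N),
  MF (Gamma0 N) = IntermediateField.adjoin ℂ {jM, jN N hN}

/-- conjugates of modular functions -/
def CONJ : Prop := ∀ N : ℕ, 0 < N → ∀ x ∈ MF (Gamma0 N), ∀ s, ExM 1 s x → ∀ σ : ℂ ≃+* ℂ,
  ∃ x' ∈ MF (Gamma0 N), ExM 1 (cm σ s) x'

/-- functions with rational expansions are in `ℚ(j, j_N)` -/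
def RAT : Prop := ∀ (N : ℕ) (hN : 0 < N), ∀ x ∈ MF (Gamma0 N), ∀ s, ExM 1 s x → RatS s →
  (∃ P Q : MvPolynomial (Fin 2) ℤ, MvPolynomial.aeval ![jM, jN N hN] Q ≠ 0 ∧
    x * MvPolynomial.aeval ![jM, jN N hN] Q = MvPolynomial.aeval ![jM, jN N hN] P) ∧
  ∃ D : ℕ, 0 < D ∧ ∀ n, ∃ (k : ℕ) (z : ℤ), (D : ℂ) ^ k * s.coeff n = z

end Vale.Agent.P004Z.EF
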