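import Vale.Agent.P022K.F0.Germ
import Vale.Agent.P022.H236.Esa
import Vale.Agent.P027H.Unif
import Vale.Agent.P027H.Add

/-! # P004, block GZ, row EF: the differential equation of `℘ ∘ φ` in power series -/

set_option autoImplicit false
set_option linter.all false

open Filter Topology PowerSeries

noncomputable section

namespace Vale.Agent.P004Z.EF

open Vale.Agent.P022.H236 Vale.Agent.P022K.Sh.Un Vale.Agent.P027H

/-- `x = u / q²`, `y = v / q³` satisfy `y² = 4 x³ - a x - b` and `dx = y e dq` -/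
structure Sol {R : Type} [CommRing R] (a b : R) (e u v : R⟦X⟧) : Prop where
  e0 : constantCoeff e = 1
  u0 : constantCoeff u = 1
  d : X * d⁄dX R u - 2 * u = v * e
  c : v ^ 2 = 4 * u ^ 3 - C a * X ^ 4 * u - C b * X ^ 6

section
variable {R S : Type} [CommRing R] [CommRing S] {a b : R} {e u v u' v' : R⟦X⟧}

theorem der_map (φ : R →+* S) (u : R⟦X⟧) : d⁄dX S (map φ u) = map φ (d⁄dX R u) := by
  ext n
  simp [coeff_derivative]

theorem cc_map (φ : R →+* S) (u : R⟦X⟧) : constantCoeff (map φ u) = φ (constantCoeff u) := by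
  rw [← coeff_zero_eq_constantCoeff_apply, coeff_map, coeff_zero_eq_constantCoeff_apply]

theorem Sol.map (h : Sol a b e u v) (φ : R →+* S) :
    Sol (φ a) (φ b) (map φ e) (map φ u) (map φ v) :=
  ⟨by rw [cc_map, h.e0, map_one], by rw [cc_map, h.u0, map_one],
    by simpa [der_map, map_ofNat] using congrArg (PowerSeries.map φ) h.d,
    by simpa [map_ofNat] using congrArg (PowerSeries.map φ) h.c⟩

theorem Sol.of_map {φ : R →+* S} (hφ : Function.Injective φ)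
    (h : Sol (φ a) (φ b) (PowerSeries.map φ e) (PowerSeries.map φ u) (PowerSeries.map φ v)) :
    Sol a b e u v :=
  ⟨hφ (by rw [← cc_map, h.e0, map_one]), hφ (by rw [← cc_map, h.u0, map_one]),
    map_injective φ hφ (by simpa [der_map, map_ofNat] using h.d),
    map_injective φ hφ (by simpa [map_ofNat] using h.c)⟩

theorem Sol.v0 (h : Sol a b e u v) : constantCoeff v = -2 := by
  have := congrArg constantCoeff h.d
  simpa [h.u0, h.e0, map_ofNat] using this.symm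

theorem th_pow (n : ℕ) (c : R⟦X⟧) :
    X * d⁄dX R (X ^ n * c) = X ^ n * ((n : R⟦X⟧) * c + X * d⁄dX R c) := by
  induction n with
  | zero => simp
  | succ n ih =>
    rw [pow_succ', mul_assoc, Derivation.leibniz, derivative_X, smul_eq_mul, smul_eq_mul, ih]
    push_cast
    ring

end

theorem Sol.unique {a b : ℂ} {e u v u' v' : ℂ⟦X⟧} (h : Sol a b e u v) (h' : Sol a b e u' v') :
    u = u' ∧ v = v' := by
  have key : ∀ n : ℕ, X ^ n ∣ u - u' := fun n => by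
    induction n with
    | zero => simp
    | succ n ih =>
      obtain ⟨c, hc⟩ := ih
      have h1 := th_pow n c
      rw [← hc, map_sub] at h1
      have h2 : ((n : ℂ⟦X⟧) * c + X * d⁄dX ℂ c - 2 * c) * (v * e + v' * e) =
          e ^ 2 * c * (4 * (u ^ 2 + u * u' + u' ^ 2) - C a * X ^ 4) :=
        mul_left_cancel₀ (pow_ne_zero n X_ne_zero) (by
          linear_combination (v * e + v' * e) * (h.d - h'.d - h1 + 2 * hc) + e ^ 2 * (h.c - h'.c) +
            e ^ 2 * (4 * (u ^ 2 + u * u' + u' ^ 2) - C a * X ^ 4) * hc)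
      have h3 := congrArg constantCoeff h2
      simp [h.u0, h'.u0, h.v0, h'.v0, h.e0, map_ofNat] at h3
      have h4 : ((n : ℂ) + 1) ≠ 0 := by exact_mod_cast n.succ_ne_zero
      rw [hc, pow_succ]
      exact mul_dvd_mul_left _ (X_dvd_iff.2 (mul_left_cancel₀ h4 (by linear_combination -h3 / 4)))
  have hu : u = u' := by
    ext n
    have := X_pow_dvd_iff.1 (key (n + 1)) n (Nat.lt_succ_self n)
    rwa [map_sub, sub_eq_zero] at this
  refine ⟨hu, mul_right_cancel₀ (b := e) (fun k => by simpa [k] using h.e0) ?_⟩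
  rw [← h.d, ← h'.d, hu]

theorem ev_tay {φ : ℂ → ℂ} (h : AnalyticAt ℂ φ 0) : ∀ᶠ w in 𝓝 (0 : ℂ), Ev (tay 0 φ) w (φ w) := by
  filter_upwards [hasFPowerSeriesAt_iff.1 h.hasFPowerSeriesAt] with w hw
  rw [zero_add] at hw
  refine hw.congr_fun fun n => ?_
  simp [tay, FormalMultilinearSeries.coeff_ofScalars, div_eq_inv_mul, mul_comm]

theorem ev_X (w : ℂ) : Ev X w w := by
  have := hasSum_single (f := fun n => coeff n (X : ℂ⟦X⟧) * w ^ n) 1 fun n hn => by
    simp [coeff_X, hn]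
  simpa [Ev] using this

variable {Λ Λ' : Submodule ℤ ℂ}

theorem ex_sol (h : IsLat Λ) {φ : ℂ → ℂ} (hφ : AnalyticAt ℂ φ 0) (h0 : φ 0 = 0)
    (h1 : deriv φ 0 = 1) : ∃ u v, Sol (g2 Λ) (g3 Λ) (tay 0 (deriv φ)) u v ∧
      ∀ᶠ q in 𝓝[≠] (0 : ℂ), φ q ∉ Λ ∧ Ev u q (wp Λ (φ q) * q ^ 2) ∧
        Ev v q (dwp Λ (φ q) * q ^ 3) := by
  obtain ⟨p, hp⟩ := id hφ
  have hs : AnalyticAt ℂ (dslope φ 0) 0 := ⟨_, hp.has_fpower_series_dslope_fslope⟩
  have s0 : dslope φ 0 0 = 1 := by rw [dslope_same, h1]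
  have es : ∀ q, φ q = q * dslope φ 0 q := fun q => by
    simpa [h0] using (sub_smul_dslope φ 0 q).symm
  have sn : ∀ᶠ q in 𝓝[≠] (0 : ℂ), dslope φ 0 q ≠ 0 :=
    (hs.continuousAt.eventually_ne (s0 ▸ one_ne_zero)).filter_mono nhdsWithin_le_nhds
  have pn : ∀ᶠ q in 𝓝[≠] (0 : ℂ), φ q ≠ 0 := by
    filter_upwards [sn, self_mem_nhdsWithin] with q h1 h2
    rw [es]
    exact mul_ne_zero h2 h1
  have tn : Tendsto φ (𝓝[≠] 0) (𝓝[≠] 0) := tendsto_nhdsWithin_iff.2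
    ⟨(h0 ▸ hφ.continuousAt.tendsto).mono_left nhdsWithin_le_nhds, pn⟩
  have nm : ∀ᶠ q in 𝓝[≠] (0 : ℂ), φ q ∉ Λ := tn.eventually h.notMem_zero
  obtain ⟨U, hU, U0, eU⟩ : ∃ U : ℂ → ℂ, AnalyticAt ℂ U 0 ∧ U 0 = 1 ∧
      U =ᶠ[𝓝[≠] 0] fun q => wp Λ (φ q) * q ^ 2 := by
    obtain ⟨L, rfl⟩ := h
    refine ⟨fun q => P014G.pa L (φ q) / dslope φ 0 q ^ 2, ((P014G.pa_analytic L).comp_of_eq hφ
      h0).div (hs.pow 2) (by simp [h1]), by simp [h0, h1, P014G.pa_zero], ?_⟩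
    filter_upwards [sn, pn] with q h1 h2
    rw [P014G.pa_eq L h2, wp_lat]
    nth_rewrite 1 [es q]
    field_simp
  have d0 : ∀ᶠ q in 𝓝[≠] (0 : ℂ), deriv φ q ≠ 0 :=
    (hφ.deriv.continuousAt.eventually_ne (h1 ▸ one_ne_zero)).filter_mono nhdsWithin_le_nhds
  let V : ℂ → ℂ := fun q => (q * deriv U q - 2 * U q) / deriv φ q
  have hV : AnalyticAt ℂ V 0 := ((analyticAt_id.mul hU.deriv).sub (analyticAt_const.mul hU)).div
    hφ.deriv (h1 ▸ one_ne_zero)
  have eV : V =ᶠ[𝓝[≠] 0] fun q => dwp Λ (φ q) * q ^ 3 := by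
    filter_upwards [eU, eU.nhdsNE_deriv, nm, d0,
      hφ.eventually_analyticAt.filter_mono nhdsWithin_le_nhds] with q e1 e2 e3 e4 e5
    have := (((h.hasDerivAt_wp e3).comp q e5.differentiableAt.hasDerivAt).mul
      (hasDerivAt_pow 2 q)).deriv
    simp only [V]
    rw [e1, e2, show deriv (fun q => wp Λ (φ q) * q ^ 2) q = _ from this, div_eq_iff e4]
    simp only [Function.comp_apply]
    norm_num
    ring
  have t := fun {ψ : ℂ → ℂ} (hψ : AnalyticAt ℂ ψ 0) =>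
    (ev_tay hψ).filter_mono (nhdsWithin_le_nhds (s := {0}ᶜ))
  refine ⟨tay 0 U, tay 0 V, ⟨by rw [tay_zero, h1], by rw [tay_zero, U0], ?_, ?_⟩, ?_⟩
  · have : X * tay 0 (deriv U) = tay 0 U + tay 0 U + tay 0 V * tay 0 (deriv φ) := ev_unique (by
      filter_upwards [t hU, t hV, t hU.deriv, t hφ.deriv, d0] with q e1 e2 e3 e4 e5
      refine ⟨_, (ev_X q).mul e3, ?_⟩
      convert (e1.add e1).add (e2.mul e4) using 1
      simp only [V]
      rw [div_mul_cancel₀ _ e5]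
      ring)
    rw [← tay_deriv]
    linear_combination this
  · have : tay 0 V ^ 2 + g2 Λ • (X ^ 4 * tay 0 U) + g3 Λ • X ^ 6 = (4 : ℂ) • tay 0 U ^ 3 :=
      ev_unique (by
      filter_upwards [t hU, t hV, eU, eV, nm] with q e1 e2 e3 e4 e5
      refine ⟨_, ((e2.pow 2).add ((((ev_X q).pow 4).mul e1).smul _)).add
        (((ev_X q).pow 6).smul _), ?_⟩
      convert (e1.pow 3).smul 4 using 1
      rw [e3, e4]
      linear_combination q ^ 6 * h.ode e5)
    simp only [smul_eq_C_mul, map_ofNat] at this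
    linear_combination this
  · filter_upwards [t hU, t hV, eU, eV, nm] with q e1 e2 e3 e4 e5
    exact ⟨e5, e3 ▸ e1, e4 ▸ e2⟩

theorem fin_index (h : IsLat Λ) (h' : IsLat Λ') (hle : Λ ≤ Λ') :
    ∃ n : ℕ, 0 < n ∧ ∀ z ∈ Λ', (n : ℂ) * z ∈ Λ := by
  obtain ⟨L, rfl⟩ := h
  obtain ⟨L', rfl⟩ := h'
  obtain ⟨a, b, e1⟩ := PeriodPair.mem_lattice.1 (hle L.ω₁_mem_lattice)
  obtain ⟨c, d, e2⟩ := PeriodPair.mem_lattice.1 (hle L.ω₂_mem_lattice)
  have n0 : a * d - b * c ≠ 0 := fun k => by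
    have k' : (a : ℂ) * d - b * c = 0 := by exact_mod_cast k
    have h1 := LinearIndependent.pair_iff.1 L.indep d (-b) (by
      simp only [Complex.real_smul]; push_cast; linear_combination L'.ω₁ * k' - d * e1 + b * e2)
    have h2 := LinearIndependent.pair_iff.1 L.indep c (-a) (by
      simp only [Complex.real_smul]; push_cast; linear_combination -L'.ω₂ * k' - c * e1 + a * e2)
    have a0 : a = 0 := by exact_mod_cast neg_eq_zero.1 h2.2
    have b0 : b = 0 := by exact_mod_cast neg_eq_zero.1 h1.2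
    exact one_ne_zero (LinearIndependent.pair_iff.1 L.indep 1 0 (by simp [← e1, a0, b0])).1
  refine ⟨(a * d - b * c).natAbs ^ 2, pow_pos (Int.natAbs_pos.2 n0) 2, fun z hz => ?_⟩
  obtain ⟨m, n, rfl⟩ := PeriodPair.mem_lattice.1 hz
  rw [← Int.cast_natCast, Nat.cast_pow, Int.natAbs_sq]
  refine PeriodPair.mem_lattice.2 ⟨(a * d - b * c) * (m * d - n * c),
    (a * d - b * c) * (n * a - m * b), ?_⟩
  rw [← e1, ← e2]
  push_cast
  ring

/-- a lattice contained in all its conjugates has rational invariants -/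
theorem rigid (h : IsLat Λ) (H : ∀ (σ : ℂ ≃+* ℂ) (Λ' : Submodule ℤ ℂ), IsLat Λ' →
    g2 Λ' = σ (g2 Λ) → g3 Λ' = σ (g3 Λ) → Λ ≤ Λ') (σ : ℂ ≃+* ℂ) :
    σ (g2 Λ) = g2 Λ ∧ σ (g3 Λ) = g3 Λ := by
  obtain ⟨Λ₁, φ₁, t₁⟩ := h.exists_tr σ.symm
  obtain ⟨Λ', φ, t⟩ := h.exists_tr σ
  have l1 := H _ _ t₁.lat' t₁.g23.1 t₁.g23.2
  obtain ⟨n, hn, k⟩ := fin_index h t₁.lat' l1
  obtain ⟨M, l2, t₂⟩ := t.sup l1 hn k
  have e : M = Λ := t₂.lat'.ext_g h
    (by rw [t₂.g23.1, t₁.g23.1]; exact σ.apply_symm_apply _)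
    (by rw [t₂.g23.2, t₁.g23.2]; exact σ.apply_symm_apply _)
  have e2 : Λ' = Λ := le_antisymm (e ▸ l2) (H _ _ t.lat' t.g23.1 t.g23.2)
  exact ⟨t.g23.1.symm.trans (by rw [e2]), t.g23.2.symm.trans (by rw [e2])⟩

end Vale.Agent.P004Z.EF
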