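import Vale.Agent.P004Z.EF.St

/-! # P004, block GZ, row EF: invariant meromorphic functions are quotients of modular forms -/

set_option autoImplicit false
set_option linter.all false

open UpperHalfPlane ModularForm Filter Topology Function.Periodic Polynomial Asymptotics
open scoped MatrixGroups Manifold ModularForm Real

noncomputable section

namespace Vale.Agent.P004Z.EF

open Vale.Agent.P022 Vale.Agent.P022.H218.L3 Vale.Agent.P022.H236.L3

namespace Qt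

theorem up_nhds (τ : ℍ) : ∀ᶠ z in 𝓝 (τ : ℂ), 0 < z.im :=
  isOpen_upperHalfPlaneSet.mem_nhds τ.im_pos

theorem an {g : ℍ → ℂ} (hg : g ∈ Hol) (τ : ℍ) : AnalyticAt ℂ (g ∘ ofComplex) τ :=
  (UpperHalfPlane.mdifferentiable_iff.1 hg).analyticAt (up_nhds τ)

/-- division by a power of the local parameter -/
theorem fac {g : ℍ → ℂ} (hg : g ∈ Hol) (τ : ℍ) (m : ℕ) {u : ℂ → ℂ} (hu : AnalyticAt ℂ u τ)
    (e : ∀ᶠ z in 𝓝 (τ : ℂ), g (ofComplex z) = (z - τ) ^ m * u z) :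
    ∃ g₁ ∈ Hol, g₁ τ = u τ ∧ g = (fun σ : ℍ => ((σ : ℂ) - τ) ^ m) * g₁ := by
  classical
  refine ⟨fun σ => if (σ : ℂ) = τ then u τ else g σ / ((σ : ℂ) - τ) ^ m, fun σ => ?_, if_pos rfl,
    funext fun σ => ?_⟩
  · rw [mdifferentiableAt_iff]
    by_cases h : (σ : ℂ) = τ
    · rw [h]
      refine hu.differentiableAt.congr_of_eventuallyEq ?_
      filter_upwards [e, up_nhds τ] with z hz hz'
      simp only [Function.comp_apply, ofComplex_apply_of_im_pos hz'] at hz ⊢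
      split_ifs with k
      · rw [k]
      · rw [hz, mul_div_cancel_left₀ _ (pow_ne_zero _ (sub_ne_zero.2 k))]
    · refine ((an hg σ).differentiableAt.div ((differentiableAt_id.sub_const (τ : ℂ)).pow m)
        (pow_ne_zero _ (sub_ne_zero.2 h))).congr_of_eventuallyEq ?_
      filter_upwards [isOpen_ne.mem_nhds h, up_nhds σ] with z hz hz'
      simp only [Function.comp_apply, ofComplex_apply_of_im_pos hz', Pi.div_apply, Pi.pow_apply, id]
      exact if_neg hz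
  · simp only [Pi.mul_apply]
    split_ifs with k
    · rw [UpperHalfPlane.ext k]
      simpa using e.self_of_nhds
    · rw [mul_div_cancel₀ _ (pow_ne_zero _ (sub_ne_zero.2 k))]

theorem val_of {A B F : ℍ → ℂ} (hA : A ∈ Hol) (hB : B ∈ Hol) (h0 : B ≠ 0) {τ : ℍ}
    (hF : AnalyticAt ℂ (F ∘ ofComplex) τ) (e : ∀ σ, A σ = B σ * F σ) :
    Val τ (inc A hA / inc B hB) (F τ) := by
  have h1 : analyticOrderAt (B ∘ ofComplex) τ ≠ ⊤ := fun h => h0 (funext fun σ => by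
    simpa using AnalyticOnNhd.eqOn_zero_of_preconnected_of_eventuallyEq_zero (U := {z : ℂ | 0 < z.im})
      (fun z hz => an hB ⟨z, hz⟩) (convex_halfSpace_im_gt 0).isPreconnected τ.im_pos
      (analyticOrderAt_eq_top.1 h) σ.im_pos)
  obtain ⟨u, hu, u0, e1⟩ := (an hB τ).analyticOrderAt_ne_top.1 h1
  obtain ⟨B₁, hB₁, b0, e2⟩ := fac hB τ _ hu e1
  obtain ⟨A₁, hA₁, a0, e3⟩ := fac hA τ (analyticOrderNatAt (B ∘ ofComplex) τ) (hu.mul hF) (by
    filter_upwards [e1] with z hz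
    rw [e, show B (ofComplex z) = _ from hz, smul_eq_mul, mul_assoc]
    rfl)
  have ht : (fun σ : ℍ => ((σ : ℂ) - τ) ^ analyticOrderNatAt (B ∘ ofComplex) τ) ∈ Hol :=
    Hol.pow_mem (Hol.sub_mem (x := fun σ : ℍ => (σ : ℂ)) mdifferentiable_coe
      (Bdd.const (τ : ℂ)).1) _
  refine ⟨⟨A₁, hA₁⟩, ⟨B₁, hB₁⟩, fun k => u0 (b0.symm.trans k), ?_, ?_⟩
  · show _ * inc B₁ hB₁ = inc A₁ hA₁
    rw [div_mul_eq_mul_div, div_eq_iff (inc_ne_zero hB h0), ← inc_mul, ← inc_mul]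
    refine inc_congr _ ?_
    rw [e3]
    nth_rewrite 2 [e2]
    ring
  · show A₁ τ = F τ * B₁ τ
    rw [a0, b0, mul_comm]
    simp

theorem val_eq {g h : ℍ → ℂ} {hg : g ∈ Hol} {hh : h ∈ Hol} (h0 : h ≠ 0) {τ : ℍ} {c : ℂ}
    (e : Val τ (inc g hg / inc h hh) c) : g τ = c * h τ := by
  obtain ⟨g', h', n0, e1, e2⟩ := e
  have e3 : inc g hg / inc h hh * inc h' h'.2 = inc g' g'.2 := e1
  rw [div_mul_eq_mul_div, div_eq_iff (inc_ne_zero hh h0), ← inc_mul, ← inc_mul] at e3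
  have := congrFun (inc_injective _ _ e3) τ
  simp only [Pi.mul_apply, e2] at this
  exact mul_right_cancel₀ n0 (by linear_combination this)

/-- polynomials in `j` -/
def pj (P : ℂ[X]) (τ : ℍ) : ℂ := P.eval (jf τ)

theorem pj_hol (P : ℂ[X]) : pj P ∈ Hol := (aeval_jM P).1

theorem pj_ne {P : ℂ[X]} (h : P ≠ 0) : pj P ≠ 0 := fun e =>
  transc (p := jM) (N := X) (D := 1) isCoprime_one_right (by simp)
    ⟨P, h, (aeval_jM P).2.trans ((inc_eq_zero _).2 e)⟩

theorem jf_smul (g : SL(2, ℤ)) (τ : ℍ) : jf (g • τ) = jf τ := by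
  have := act_eq_self jM_mem (Subgroup.mem_top g⁻¹)
  rw [jM, inc, act_algebraMap] at this
  have h := congrFun (inc_injective (actH g⁻¹ ⟨jf, jf_mem⟩).2 jf_mem this) τ
  rwa [actH_apply, inv_inv] at h

theorem disc_pow (d : ℕ) : IsMF ⊤ (d * 12) (discriminant ^ d) := isMF_disc.pow d

theorem pj_mf (P : ℂ[X]) : ∃ d : ℕ, IsMF ⊤ (d * 12) (discriminant ^ d * pj P) := by
  induction P using Polynomial.induction_on with
  | C a =>
    refine ⟨0, ?_⟩
    convert IsMF.const (Γ := ⊤) a using 1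
    · simp
    · ext τ; simp [pj]
  | add p q hp hq =>
    obtain ⟨d, h⟩ := hp
    obtain ⟨d', h'⟩ := hq
    refine ⟨d + d', ?_⟩
    have h2 := (disc_pow d).mul h'
    rw [add_comm] at h2
    convert ((disc_pow d').mul h).add h2 using 1
    · push_cast; ring
    · ext τ; simp [pj]; ring
  | monomial n a h =>
    obtain ⟨d, h⟩ := h
    refine ⟨d + 1, ?_⟩
    convert h.mul isMF_E43 using 1
    · push_cast; ring
    · ext τ; simp [pj, E4_pow]; ring

theorem reps (Γ : Subgroup SL(2, ℤ)) [Γ.FiniteIndex] : ∃ (ι : Type) (_ : Finite ι)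
    (r : ι → SL(2, ℤ)), ∀ g, ∃ i, ∃ γ ∈ Γ, g = γ * r i := by
  refine ⟨SL(2, ℤ) ⧸ Γ, inferInstance, fun q => q.out⁻¹, fun g => ?_⟩
  obtain ⟨h, e⟩ := QuotientGroup.mk_out_eq_mul Γ g⁻¹
  exact ⟨QuotientGroup.mk g⁻¹, h, h.2, by simp only [e]; group⟩

theorem md_smul (g : SL(2, ℤ)) (τ : ℍ) : MDiffAt (fun σ : ℍ => g • σ) τ :=
  mdifferentiable_smul (g := (g : GL (Fin 2) ℝ)) (by simp) τ

/-- clearing the pole at one point -/
theorem loc {F : ℍ → ℂ} {τ : ℍ} (h : MeromorphicAt (F ∘ ofComplex) τ) :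
    ∃ P : ℂ[X], P ≠ 0 ∧ ∀ᶠ σ in 𝓝 τ, MDiffAt (pj P * F) σ := by
  obtain ⟨n, hn⟩ := h
  obtain ⟨p, hp⟩ := an jf_mem τ
  have h1 : AnalyticAt ℂ (dslope (jf ∘ ofComplex) τ) τ := ⟨_, hp.has_fpower_series_dslope_fslope⟩
  refine ⟨(X - C (jf τ)) ^ n, pow_ne_zero _ (X_sub_C_ne_zero _), ?_⟩
  have h2 : AnalyticAt ℂ ((pj ((X - C (jf τ)) ^ n) * F) ∘ ofComplex) τ := by
    refine ((h1.pow n).mul hn).congr (Eventually.of_forall fun z => ?_)
    have := sub_smul_dslope (jf ∘ ofComplex) (τ : ℂ) z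
    simp only [Function.comp_apply, ofComplex_apply, smul_eq_mul] at this
    simp only [Function.comp_apply, Pi.mul_apply, pj, eval_pow, eval_sub, eval_X, eval_C,
      Pi.pow_apply, smul_eq_mul, ← this, mul_pow]
    ring
  filter_upwards [continuous_coe.continuousAt.eventually h2.eventually_analyticAt] with σ hσ
  exact mdifferentiableAt_iff.2 hσ.differentiableAt

theorem pj_mul (P Q : ℂ[X]) : pj (P * Q) = pj P * pj Q := funext fun τ => eval_mul

theorem cpt {F : ℍ → ℂ} (h : ∀ τ : ℍ, MeromorphicAt (F ∘ ofComplex) τ) {K : Set ℍ}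
    (hK : IsCompact K) : ∃ P : ℂ[X], P ≠ 0 ∧ ∀ σ ∈ K, MDiffAt (pj P * F) σ := by
  refine hK.induction_on (p := fun K => ∃ P : ℂ[X], P ≠ 0 ∧ ∀ σ ∈ K, MDiffAt (pj P * F) σ)
    ⟨1, one_ne_zero, fun _ h => h.elim⟩ (fun s t hst ⟨P, h0, h⟩ => ⟨P, h0, fun σ k => h σ (hst k)⟩)
    (fun s t ⟨P, h0, h⟩ ⟨Q, h0', h'⟩ => ⟨P * Q, mul_ne_zero h0 h0', fun σ k => ?_⟩) fun τ _ => ?_
  · rcases k with k | k
    · rw [mul_comm P, pj_mul, mul_assoc]
      exact (pj_hol Q σ).mul (h σ k)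
    · rw [pj_mul, mul_assoc]
      exact (pj_hol P σ).mul (h' σ k)
  · obtain ⟨P, h0, h⟩ := loc (h τ)
    exact ⟨_, mem_nhdsWithin_of_mem_nhds h, P, h0, fun _ k => k⟩

/-- near a cusp -/
theorem at_cusp {h : ℕ} (h0 : 0 < h) {φ : ℂ → ℂ} (hφ : MeromorphicAt φ 0) :
    (∃ T : ℝ, ∀ τ : ℍ, T ≤ τ.im → MDiffAt (fun τ : ℍ => φ (qParam h τ)) τ) ∧
    ∃ n : ℕ, IsBoundedAtImInfty (discriminant ^ n * fun τ : ℍ => φ (qParam h τ)) := by
  have ht := H236.tendsto_q h0.ne'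
  constructor
  · obtain ⟨T, hT⟩ := (atImInfty_mem _).1 (ht.eventually hφ.eventually_analyticAt)
    refine ⟨T, fun τ hτ => ?_⟩
    have h1 : DifferentiableAt ℂ (fun z => φ (qParam h z)) τ :=
      (hT τ hτ).differentiableAt.comp (τ : ℂ) (differentiable_qParam τ)
    exact h1.mdifferentiableAt.comp τ (mdifferentiable_coe τ)
  · obtain ⟨n, hn⟩ := hφ
    have h1 : (discriminant : ℍ → ℂ) =O[atImInfty] fun τ : ℍ => qParam h τ := by
      refine (CuspFormClass.exp_decay_atImInfty (h := 1) CuspForm.discriminant one_pos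
        one_mem_strictPeriods_SL).trans (IsBigO.of_bound' (Eventually.of_forall fun τ => ?_))
      rw [norm_qParam, Real.norm_of_nonneg (Real.exp_pos _).le, Real.exp_le_exp, coe_im]
      have h2 : (1 : ℝ) ≤ h := by exact_mod_cast h0
      have h3 : 0 < 2 * π * τ.im := by have := τ.im_pos; positivity
      rw [neg_mul, neg_mul, neg_div, neg_div, neg_le_neg_iff]
      gcongr
    have h2 := (hn.continuousAt.tendsto.comp (ht.mono_right nhdsWithin_le_nhds)).isBigO_one ℝ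
    refine ⟨n, ((h1.pow n).mul (isBigO_refl (fun τ : ℍ => φ (qParam h τ)) _)).trans ?_⟩
    simpa only [Function.comp_def, sub_zero, smul_eq_mul] using! h2

end Qt

open Qt

theorem quot : QUOT := by
  intro Γ _ F hi hm hc
  obtain ⟨ι, _, r, hr⟩ := reps Γ
  have := Fintype.ofFinite ι
  choose h φ h0 hφ e using fun i => hc (r i)
  choose T hT using fun i => (at_cusp (h0 i) (hφ i)).1
  choose n hn using fun i => (at_cusp (h0 i) (hφ i)).2
  obtain ⟨P, P0, hP⟩ := cpt hm (K := ⋃ i, (fun σ : ℍ => r i • σ) ''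
    ModularGroup.truncatedFundamentalDomain (T i)) (isCompact_iUnion fun i =>
      (ModularGroup.isCompact_truncatedFundamentalDomain _).image
        (continuous_const_smul (r i : GL (Fin 2) ℝ)))
  have hG : pj P * F ∈ Hol := fun τ => by
    obtain ⟨g, hg⟩ := ModularGroup.exists_smul_mem_fd τ
    obtain ⟨i, γ, hγ, e1⟩ := hr g⁻¹
    have e2 : r i • g • τ = γ⁻¹ • τ := by
      rw [← mul_smul, eq_inv_mul_iff_mul_eq.2 e1.symm, inv_mul_cancel_right]
    by_cases k : (g • τ).im ≤ T i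
    · have h1 := hP (γ⁻¹ • τ) (Set.mem_iUnion.2 ⟨i, g • τ, ⟨hg, k⟩, e2⟩)
      convert h1.comp τ (md_smul γ⁻¹ τ) using 1
      ext σ
      simp only [Function.comp_apply, Pi.mul_apply, pj, jf_smul, hi _ (inv_mem hγ)]
    · refine (pj_hol P τ).mul ?_
      refine ((hT i _ (not_le.1 k).le).comp τ (md_smul g τ)).congr_of_eventuallyEq
        (Eventually.of_forall fun σ => ?_)
      rw [Function.comp_apply, ← e, ← hi γ hγ (r i • g • σ), ← mul_smul γ, ← e1, inv_smul_smul]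
  obtain ⟨d, hd⟩ := pj_mf P
  have hB := (disc_pow (∑ i, n i)).mul hd
  have B0 : discriminant ^ (∑ i, n i) * (discriminant ^ d * pj P) ≠ 0 := fun k =>
    pj_ne P0 (funext fun τ => by simpa [discriminant_ne_zero] using congrFun k τ)
  have sl : ∀ g : SL(2, ℤ), (discriminant ^ (∑ i, n i) * (discriminant ^ d * pj P) * F) ∣[
      ((∑ i, n i : ℕ) * 12 + d * 12 : ℤ)] g =
      discriminant ^ (∑ i, n i) * (discriminant ^ d * pj P) * fun τ => F (g • τ) := fun g => by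
    have h1 := hB.slash g (Subgroup.mem_top _)
    ext τ
    have h2 := congrFun h1 τ
    rw [SL_slash_apply] at h2 ⊢
    rw [Pi.mul_apply, Pi.mul_apply _ (fun τ => F (g • τ)), ← h2]
    ring
  have hA : IsMF Γ ((∑ i, n i : ℕ) * 12 + d * 12 : ℤ)
      (discriminant ^ (∑ i, n i) * (discriminant ^ d * pj P) * F) := by
    refine ⟨?_, fun γ hγ => ?_, fun g => ?_⟩
    · rw [mul_assoc, mul_assoc]
      exact Hol.mul_mem (disc_pow _).hol (Hol.mul_mem (disc_pow _).hol hG)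
    · rw [sl, funext (hi γ hγ)]
    · obtain ⟨i, γ, hγ, rfl⟩ := hr g
      obtain ⟨m, hm⟩ := Nat.exists_eq_add_of_le
        (Finset.single_le_sum (fun i _ => Nat.zero_le (n i)) (Finset.mem_univ i))
      have h1 := ((disc_pow m).mul hd).bdd 1
      rw [SlashAction.slash_one] at h1
      rw [sl, hm]
      refine (BoundedAtFilter.mul h1 (hn i)).congr_left fun τ => ?_
      simp only [Pi.mul_apply, Pi.pow_apply, mul_smul, hi γ hγ, e]
      ring
  exact ⟨_, ⟨_, _, _, hA, hB.mono le_top, B0, rfl⟩, fun τ hτ =>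
    val_of hA.hol hB.hol B0 hτ fun σ => rfl⟩

end Vale.Agent.P004Z.EF
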