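import Vale.Agent.P004Z.EF.Gen
import Vale.Agent.P004Z.EF.Quot
import Vale.Agent.P004Z.EF.Ode
import Vale.Agent.P022K.F0.Maj

/-! # P004, block GZ, row EF: the invariants of the period lattice are rational -/

set_option autoImplicit false
set_option linter.all false

open UpperHalfPlane CongruenceSubgroup ModularForm Filter Topology Function.Periodic PowerSeries
open scoped MatrixGroups Manifold ModularForm Real

noncomputable section

namespace Vale.Agent.P004Z.EF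

open P004N Vale.Agent.P022 Vale.Agent.P022.H218.L3 Vale.Agent.P022.H236 Vale.Agent.P022.H236.L3
  Vale.Agent.P022.H542.L3 Vale.Agent.P027M.ES Vale.Agent.P022K.Sh.Un Qt
open Vale.Agent.P027H (IsLat wp dwp g2 g3)

variable {N : ℕ} {f F G : ℍ → ℂ} {c : ℕ → ℂ} {Λ Λ' : Submodule ℤ ℂ}

namespace Co

theorem cusp_fn (hf : S2 N f) (hF : Prim f F) {n : ℕ} (hn : 0 < n) {g : SL(2, ℤ)}
    (hw : g * ModularGroup.T ^ n * g⁻¹ ∈ Gamma0 N) :
    ∃ φ : ℂ → ℂ, AnalyticAt ℂ φ 0 ∧ ∀ τ : ℍ, F (g • τ) = φ (qParam n τ) := by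
  obtain ⟨h1, h2⟩ := cusp_prim cusp (cf_of hf) hF hn hw
  have h3 := Cusp.periodic (f := fun τ => F (g • τ)) h2
  have h0 : (0 : ℝ) < n := Nat.cast_pos.2 hn
  exact ⟨_, analyticAt_cuspFunction_zero h0 h3 (comp_mem g hF.hol) h1,
    fun τ => (eq_cuspFunction τ h0.ne' h3).symm⟩

theorem T_mem (N : ℕ) : ModularGroup.T ^ 1 ∈ Gamma0 N := by
  rw [pow_one, Gamma0_mem]
  simp [ModularGroup.coe_T]

theorem ex_phi (hf : S2 N f) (hq : QE f c) (h0 : c 0 = 0) : ∃ φ : ℂ → ℂ, AnalyticAt ℂ φ 0 ∧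
    φ 0 = 0 ∧ tay 0 (deriv φ) = PowerSeries.mk (fun n => c (n + 1)) ∧
      ∀ τ : ℍ, Pr c τ = φ (qParam (1 : ℕ) τ) := by
  obtain ⟨φ, hφ, e⟩ := cusp_fn hf (prim_Pr hq h0) one_pos (g := 1) (by simpa using T_mem N)
  simp only [one_smul] at e
  have h1 : tay 0 φ = PowerSeries.mk fun n => c n / n := by
    refine ev_unique (((ev_tay hφ).filter_mono nhdsWithin_le_nhds).and (eventually_punctured
      one_ne_zero (P := fun q => Ev (PowerSeries.mk fun n => c n / n) q (φ q))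
      (Eventually.of_forall fun τ => ?_)) |>.mono fun q h => ⟨_, h⟩)
    rw [← e]
    have hs : Summable fun n : ℕ => c n / n * Complex.exp (2 * π * Complex.I * n * τ) := by
      refine Summable.of_norm_bounded (summable_norm_iff.2 (hq τ).summable) fun n => ?_
      rw [norm_mul, norm_mul]
      gcongr
      rcases eq_or_ne n 0 with rfl | hn
      · simp
      · rw [norm_div, Complex.norm_natCast]
        exact div_le_self (norm_nonneg _) (by exact_mod_cast Nat.pos_of_ne_zero hn)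
    refine hs.hasSum.congr_fun fun n => ?_
    rw [coeff_mk, qParam, ← Complex.exp_nat_mul]
    congr 2
    push_cast
    ring
  refine ⟨φ, hφ, ?_, ?_, e⟩
  · rw [← tay_zero φ, h1]
    simp
  · rw [tay_deriv, h1]
    ext n
    have : ((n : ℂ) + 1) ≠ 0 := by exact_mod_cast n.succ_ne_zero
    simp [coeff_derivative, this]

theorem par_fn [NeZero N] (hf : S2 N f) (hF : Prim f F) {W : ℂ → ℂ} (hW : ∀ z, MeromorphicAt W z)
    (hp : ∀ z w, z - w ∈ Lam N F → W z = W w) (ha : ∀ z, z ∉ Lam N F → AnalyticAt ℂ W z) :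
    ∃ x ∈ MF (Gamma0 N), ∀ τ, F τ ∉ Lam N F → Val τ x (W (F τ)) := by
  obtain ⟨n, hn, hw⟩ := Inj.exists_width (Gamma0 N)
  obtain ⟨x, hx, e⟩ := quot (Gamma0 N) (fun τ => W (F τ))
    (fun γ hγ τ => hp _ _ (per_mem hf hF hγ τ))
    (fun τ => (hW _).comp_analyticAt (an hF.hol τ)) fun g => by
      obtain ⟨φ, hφ, e⟩ := cusp_fn hf hF hn (hw g)
      exact ⟨n, W ∘ φ, hn, (hW _).comp_analyticAt hφ, fun τ => congrArg W (e τ)⟩
  exact ⟨x, hx, fun τ hτ => e τ ((ha _ hτ).comp_of_eq (an hF.hol τ) (by simp))⟩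

theorem exM_of_val {x : Mer} (hx : x ∈ MF (Gamma0 N)) {t : LS} (ht : ExL 1 t G)
    (e : ∀ᶠ τ in atImInfty, Val τ x (G τ)) : ExM 1 t x := by
  obtain ⟨k, g, h, hg, hh, h0, rfl⟩ := hx
  have h1 := isMF_exL one_ne_zero (T_mem N) hg
  have h2 := isMF_exL one_ne_zero (T_mem N) hh
  have h3 := h1.unique one_ne_zero ((ht.mul h2).congr (e.mono fun τ hτ => (val_eq h0 hτ).symm))
  have := ExL.exM hg.hol hh.hol h0 h1 h2
  rwa [h3, mul_div_cancel_right₀ _ (h2.ne_zero hh.hol h0)] at this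

theorem le_of (hf : S2 N f) (hF : Prim f F) (h' : IsLat Λ') {x : Mer} (hx : x ∈ MF (Gamma0 N))
    {t : LS} (h1 : ExM 1 t x) (h2 : ExL 1 t fun τ => wp Λ' (F τ))
    (h3 : Tendsto F atImInfty (𝓝[≠] 0)) : Lam N F ≤ Λ' := by
  obtain ⟨k, g, h, hg, hh, h0, rfl⟩ := hx
  have e1 := isMF_exL one_ne_zero (T_mem N) hg
  have e2 := isMF_exL one_ne_zero (T_mem N) hh
  have n0 := e2.ne_zero hh.hol h0
  have e3 := (h2.mul e2).sub e1
  rw [h1.unique one_ne_zero (ExL.exM hg.hol hh.hol h0 e1 e2), div_mul_cancel₀ _ n0, sub_self] at e3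
  obtain ⟨A, hA⟩ := (atImInfty_mem _).1 e3.eventually_zero
  have key : ∀ τ, F τ ∉ Λ' → wp Λ' (F τ) * h τ = g τ := fun τ hτ => by
    have k := mero_ident (W := {z : ℂ | 0 < z.im}) (convex_halfSpace_im_gt 0).isPreconnected
      (f := (wp Λ' ∘ F ∘ ofComplex) * (h ∘ ofComplex)) (g := g ∘ ofComplex)
      (fun z hz => ((h'.mer_wp _).comp_analyticAt (an hF.hol ⟨z, hz⟩)).mul
        (an hh.hol ⟨z, hz⟩).meromorphicAt) (fun z hz => (an hg.hol ⟨z, hz⟩).meromorphicAt)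
      (z := ((|A| + 1 : ℝ) : ℂ) * Complex.I) (by simp; positivity) (by
        refine Eventually.filter_mono nhdsWithin_le_nhds ?_
        filter_upwards [(isOpen_lt (continuous_const (y := |A|)) Complex.continuous_im).mem_nhds
          (show |A| < (((|A| + 1 : ℝ) : ℂ) * Complex.I).im by simp)] with z hz
        have hz' : 0 < z.im := (abs_nonneg A).trans_lt hz
        have := hA ⟨z, hz'⟩ ((le_abs_self A).trans (le_of_lt hz))
        simpa [ofComplex_apply_of_im_pos hz', sub_eq_zero] using this) τ τ.im_pos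
    simpa using tendsto_nhds_unique_of_eventuallyEq
      (((((h'.analyticAt_wp hτ).comp_of_eq (an hF.hol τ) (by simp)).mul
        (an hh.hol τ)).continuousAt.tendsto).mono_left nhdsWithin_le_nhds)
      ((an hg.hol τ).continuousAt.tendsto.mono_left nhdsWithin_le_nhds) k
  intro z hz
  by_contra hz'
  obtain ⟨γ, hγ, e⟩ := (mem_Lam hf hF).1 hz
  have t0 := h3.mono_right nhdsWithin_le_nhds
  have t1 : Tendsto (fun τ => F τ + z) atImInfty (𝓝 z) := by simpa using t0.add_const z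
  have t2 := (t0.pow 2).mul ((h'.analyticAt_wp hz').continuousAt.tendsto.comp t1)
  refine one_ne_zero ((tendsto_nhds_unique_of_eventuallyEq (h'.tendsto_wp.comp h3) t2 ?_).trans
    (by simp))
  filter_upwards [h3.eventually h'.notMem_zero, t1.eventually (h'.notMem_nhds hz'),
    (e2.inv one_ne_zero n0).1] with τ k1 k2 k3
  have k4 : F (γ • τ) = F τ + z := by rw [← e τ]; ring
  have k5 := key (γ • τ) (k4 ▸ k2)
  have k6 := congrFun (hg.slash γ hγ) τ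
  have k7 := congrFun (hh.slash γ hγ) τ
  rw [SL_slash_apply] at k6 k7
  rw [← k5, ← key τ k1, mul_assoc, k7, k4] at k6
  exact congrArg (F τ ^ 2 * ·) (mul_right_cancel₀ k3 k6).symm

theorem sol (hf : S2 N f) (hq : QE f c) (h0 : c 0 = 0) (h1 : c 1 = 1) (h : IsLat Λ) :
    ∃ u v, Sol (g2 Λ) (g3 Λ) (PowerSeries.mk fun n => c (n + 1)) u v ∧
      ExL 1 (ls (-2) u) (fun τ => wp Λ (Pr c τ)) ∧ ExL 1 (ls (-3) v) (fun τ => dwp Λ (Pr c τ)) ∧
      (∀ᶠ τ in atImInfty, Pr c τ ∉ Λ) ∧ Tendsto (Pr c) atImInfty (𝓝[≠] 0) := by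
  obtain ⟨φ, hφ, p0, e1, e⟩ := ex_phi hf hq h0
  obtain ⟨u, v, hs, k⟩ := ex_sol h hφ p0 (by rw [← tay_zero (deriv φ), e1]; simpa using h1)
  have k' := (tendsto_q one_ne_zero).eventually k
  have k2 : ∀ᶠ τ in atImInfty, Pr c τ ∉ Λ := k'.mono fun τ hτ => e τ ▸ hτ.1
  refine ⟨u, v, e1 ▸ hs, Exq.exL (k'.mono fun τ hτ => ?_), Exq.exL (k'.mono fun τ hτ => ?_), k2,
    tendsto_nhdsWithin_iff.2 ⟨?_, k2.mono fun τ hτ e => hτ (e ▸ zero_mem _)⟩⟩
  · simp only [e, neg_neg, zpow_ofNat]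
    exact hτ.2.1
  · simp only [e, neg_neg, zpow_ofNat]
    exact hτ.2.2
  · rw [funext e, ← p0]
    exact hφ.continuousAt.tendsto.comp ((tendsto_q one_ne_zero).mono_right nhdsWithin_le_nhds)

end Co

open Co in
theorem core [NeZero N] {a : ℕ → ℤ} (hf : S2 N f) (hq : QE f fun n => (a n : ℂ)) (h0 : a 0 = 0)
    (h1 : a 1 = 1) (hF : F = Pr fun n => (a n : ℂ)) (h : IsLat (Lam N F)) :
    ∃ (x y : Mer) (u v : ℂ⟦X⟧), x ∈ MF (Gamma0 N) ∧ y ∈ MF (Gamma0 N) ∧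
      (∀ τ, F τ ∉ Lam N F → Val τ x (wp (Lam N F) (F τ))) ∧
      (∀ τ, F τ ∉ Lam N F → Val τ y (dwp (Lam N F) (F τ))) ∧
      ExM 1 (ls (-2) u) x ∧ ExM 1 (ls (-3) v) y ∧
      Sol (g2 (Lam N F)) (g3 (Lam N F)) (PowerSeries.mk fun n => (a (n + 1) : ℂ)) u v ∧
      (∃ r : ℚ, g2 (Lam N F) = r) ∧ (∃ r : ℚ, g3 (Lam N F) = r) ∧
      RatS (ls (-2) u) ∧ RatS (ls (-3) v) := by
  have c0 : ((a 0 : ℤ) : ℂ) = 0 := by simp [h0]
  have c1 : ((a 1 : ℤ) : ℂ) = 1 := by simp [h1]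
  have hP : Prim f F := hF ▸ prim_Pr hq c0
  obtain ⟨x, hx, vx⟩ := par_fn hf hP h.mer_wp (fun z w => h.wp_congr) fun z => h.analyticAt_wp
  obtain ⟨y, hy, vy⟩ := par_fn hf hP h.mer_dwp (fun z w => h.dwp_congr) fun z => h.analyticAt_dwp
  obtain ⟨u, v, hs, eu, ev, k, -⟩ := sol hf hq c0 c1 h
  rw [← hF] at eu ev k
  have ex := exM_of_val hx eu (k.mono vx)
  have hm : ∀ σ : ℂ ≃+* ℂ, Sol (σ (g2 (Lam N F))) (σ (g3 (Lam N F)))
      (PowerSeries.mk fun n => (a (n + 1) : ℂ)) (map (σ : ℂ →+* ℂ) u) (map (σ : ℂ →+* ℂ) v) :=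
    fun σ => by
      have k := hs.map (σ : ℂ →+* ℂ)
      rwa [show map (σ : ℂ →+* ℂ) (PowerSeries.mk fun n => (a (n + 1) : ℂ)) =
        PowerSeries.mk fun n => (a (n + 1) : ℂ) by ext n; simp] at k
  have hr := rigid h fun σ Λ' h' e2 e3 => by
    obtain ⟨u', v', hs', eu', -, -, k'⟩ := sol hf hq c0 c1 h'
    rw [← hF] at eu' k'
    rw [e2, e3] at hs'
    obtain ⟨x', hx', ex'⟩ := conj_ex N (NeZero.pos N) x hx _ ex σ
    rw [cm_ls, ((hm σ).unique hs').1] at ex'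
    exact le_of hf hP h' hx' ex' eu' k'
  have hu : ∀ σ : ℂ ≃+* ℂ, map (σ : ℂ →+* ℂ) u = u ∧ map (σ : ℂ →+* ℂ) v = v := fun σ => by
    have := hm σ
    rw [(hr σ).1, (hr σ).2] at this
    exact this.unique hs
  refine ⟨x, y, u, v, hx, hy, vx, vy, ex, exM_of_val hy ev (k.mono vy), hs,
    P027H.rat_of_fixed fun σ => (hr σ).1, P027H.rat_of_fixed fun σ => (hr σ).2,
    fun n => P027H.rat_of_fixed fun σ => ?_, fun n => P027H.rat_of_fixed fun σ => ?_⟩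
  · rw [← coeff_cm, cm_ls, (hu σ).1]
  · rw [← coeff_cm, cm_ls, (hu σ).2]

end Vale.Agent.P004Z.EF
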