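import Vale.Agent.P004Z.EF.Ode

/-! # P004, block GZ, row EF: the coefficients of the invariant differential modulo `p` -/

set_option autoImplicit false
set_option linter.all false

open PowerSeries

noncomputable section

namespace Vale.Agent.P004Z.EF

namespace Cg

theorem hom_pow {R A : Type} [CommRing R] [CommRing A] [Algebra R A] {g : Polynomial R}
    (hg : g.natDegree ≤ 3) (s t : A) (m : ℕ) :
    MvPolynomial.aeval ![s, t] (g.homogenize 3) ^ m = ∑ kl ∈ Finset.HasAntidiagonal.antidiagonal (m * 3),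
      algebraMap R A ((g ^ m).coeff kl.1) * (s ^ kl.1 * t ^ kl.2) := by
  have : (g ^ m).homogenize (m * 3) = g.homogenize 3 ^ m := by
    induction m with
    | zero => simp
    | succ m ih =>
      rw [pow_succ, pow_succ, add_mul, one_mul, Polynomial.homogenize_mul _ _
        (Polynomial.natDegree_pow_le.trans (Nat.mul_le_mul_left m hg)) hg, ih]
  rw [← map_pow, ← this, Polynomial.homogenize, map_sum]
  refine Finset.sum_congr rfl fun kl _ => ?_
  rw [MvPolynomial.aeval_monomial, Finsupp.prod_fintype _ _ (by simp)]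
  simp

variable {p : ℕ} [hp : Fact p.Prime]

/-- the cubic -/
def cub (a b : ZMod p) : Polynomial (ZMod p) :=
  Polynomial.C 4 * Polynomial.X ^ 3 - Polynomial.C a * Polynomial.X - Polynomial.C b

theorem cub_deg (a b : ZMod p) : (cub a b).natDegree ≤ 3 := by
  unfold cub
  compute_degree

theorem cartier {m : ℕ} (hm : p = 2 * m + 1) {a b : ZMod p} {e u v : (ZMod p)⟦X⟧}
    (h : Sol a b e u v) : coeff (2 * m) e = (cub a b ^ m).coeff (2 * m) := by
  have m0 : 0 < m := by have := hp.out.two_le; omega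
  have two : (2 : ZMod p) ≠ 0 := fun k => by
    have := Nat.le_of_dvd two_pos ((ZMod.natCast_eq_zero_iff 2 p).1 (by exact_mod_cast k))
    omega
  have v0 : constantCoeff v ≠ 0 := by rw [h.v0]; exact neg_ne_zero.2 two
  have hV : v * v⁻¹ = 1 := PowerSeries.mul_inv_cancel v v0
  have p0 : ((p : ℕ) : (ZMod p)⟦X⟧) = 0 := by
    rw [← map_natCast (C (R := ZMod p)), ZMod.natCast_self, map_zero]
  have h1 := hom_pow (cub_deg a b) u (X ^ 2) m
  have h2 : MvPolynomial.aeval ![u, X ^ 2] ((cub a b).homogenize 3) = v ^ 2 := by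
    rw [h.c, cub, Polynomial.homogenize_sub, Polynomial.homogenize_sub, Polynomial.homogenize_C_mul,
      Polynomial.homogenize_C_mul, Polynomial.homogenize_C, Polynomial.homogenize_X_pow le_rfl,
      Polynomial.homogenize_X three_ne_zero]
    simp [← C_eq_algebraMap, map_ofNat]
    ring
  have h3 : X * e = ∑ kl ∈ Finset.HasAntidiagonal.antidiagonal (m * 3), C ((cub a b ^ m).coeff kl.1) *
      (X ^ (2 * kl.2 + 1) * (u ^ kl.1 * v⁻¹ ^ p * (X * d⁄dX _ u - 2 * u))) := by
    have : X * e = (v ^ 2) ^ m * (X * v⁻¹ ^ p * (X * d⁄dX _ u - 2 * u)) := by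
      have k : (v * v⁻¹) ^ p = 1 := by rw [hV, one_pow]
      have k2 : v ^ p = v ^ (2 * m + 1) := congrArg (v ^ ·) hm
      rw [mul_pow, k2] at k
      rw [h.d]
      linear_combination -X * e * k
    rw [this, ← h2, h1, Finset.sum_mul]
    refine Finset.sum_congr rfl fun kl _ => ?_
    rw [← C_eq_algebraMap]
    ring
  have h4 := congrArg (coeff (2 * m + 1)) h3
  rw [coeff_succ_X_mul, map_sum, Finset.sum_eq_single (2 * m, m)] at h4
  · rw [h4, coeff_C_mul, coeff_X_pow_mul', if_pos le_rfl, Nat.sub_self]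
    simp only [coeff_zero_eq_constantCoeff, map_mul, map_pow, map_sub, ZMod.pow_card, h.u0,
      constantCoeff_inv, h.v0, constantCoeff_X, map_ofNat]
    field_simp
    ring
  · rintro ⟨i, l⟩ hil ne
    have e1 : i + l = m * 3 := Finset.HasAntidiagonal.mem_antidiagonal.1 hil
    have i1 : ((i + 1 : ℕ) : ZMod p) ≠ 0 := fun k => by
      obtain ⟨c, hc⟩ := (ZMod.natCast_eq_zero_iff _ _).1 k
      rcases c with _ | _ | c
      · omega
      · exact ne (Prod.ext (by simp; omega) (by simp; omega))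
      · rw [hm] at hc; nlinarith
    have e2 : ((2 * l + 1 : ℕ) : (ZMod p)⟦X⟧) = -2 * ((i + 1 : ℕ) : (ZMod p)⟦X⟧) := by
      have : ((2 * l + 1 + 2 * (i + 1) : ℕ) : (ZMod p)⟦X⟧) = ((3 * p : ℕ) : (ZMod p)⟦X⟧) :=
        congrArg _ (by omega)
      rw [Nat.cast_add, Nat.cast_mul 3, Nat.cast_mul 2 (i + 1), p0] at this
      linear_combination this
    have e3 := th_pow (2 * l + 1) (u ^ (i + 1) * v⁻¹ ^ p)
    rw [Derivation.leibniz _ (u ^ (i + 1)), Derivation.leibniz_pow, Derivation.leibniz_pow, e2]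
      at e3
    simp only [smul_eq_mul, nsmul_eq_mul, p0, Nat.add_sub_cancel] at e3
    have e4 : X * d⁄dX _ (X ^ (2 * l + 1) * (u ^ (i + 1) * v⁻¹ ^ p)) = C ((i + 1 : ℕ) : ZMod p) *
        (X ^ (2 * l + 1) * (u ^ i * v⁻¹ ^ p * (X * d⁄dX _ u - 2 * u))) := by
      rw [e3, map_natCast]
      ring
    have e5 := congrArg (coeff (2 * m + 1)) e4
    have e6 : ((2 * m : ℕ) : ZMod p) + 1 = 0 := by
      rw [← Nat.cast_succ, Nat.succ_eq_add_one, ← hm, ZMod.natCast_self]
    rw [coeff_succ_X_mul, coeff_derivative, e6, mul_zero, coeff_C_mul] at e5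
    rw [coeff_C_mul, (mul_eq_zero.1 e5.symm).resolve_left i1, mul_zero]
  · exact fun k => (k (Finset.HasAntidiagonal.mem_antidiagonal.2 (by simp; omega))).elim

theorem count {m : ℕ} (hm : p = 2 * m + 1) {g : Polynomial (ZMod p)} (hg : g.natDegree ≤ m * 3) :
    ∑ x, g.eval x = -g.coeff (2 * m) := by
  have m0 : 0 < m := by have := hp.out.two_le; omega
  have hc : Fintype.card (ZMod p) - 1 = 2 * m := by rw [ZMod.card]; omega
  simp only [Polynomial.eval_eq_sum_range' (Nat.lt_succ_of_le hg)]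
  rw [Finset.sum_comm]
  simp only [← Finset.mul_sum]
  have k : ∀ i, 0 < i → ∑ x : ZMod p, x ^ i = if 2 * m ∣ i then -1 else 0 := fun i hi => by
    rw [← hc, ← FiniteField.sum_pow_units, ← Finset.add_sum_erase _ _ (Finset.mem_univ 0),
      zero_pow hi.ne', zero_add]
    refine (Finset.sum_bij (fun (x : (ZMod p)ˣ) _ => (x : ZMod p)) (by simp)
      (fun _ _ _ _ => Units.ext) (fun y hy => ?_) fun _ _ => rfl).symm
    exact ⟨Units.mk0 y (by simpa using hy), Finset.mem_univ _, rfl⟩
  rw [Finset.sum_eq_single (2 * m), k _ (by omega), if_pos dvd_rfl, mul_neg_one]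
  · intro i hi ne
    rcases Nat.eq_zero_or_pos i with rfl | i0
    · simp
    · rw [k i i0, if_neg, mul_zero]
      rintro ⟨c, rfl⟩
      have := Finset.mem_range.1 hi
      rcases c with _ | _ | c
      · omega
      · omega
      · nlinarith
  · exact fun k => (k (Finset.mem_range.2 (by omega))).elim

end Cg

open Cg in
/-- **the congruence** -/
theorem cong {p : ℕ} [hp : Fact p.Prime] (h2 : p ≠ 2) {a b A B w : ZMod p} (hw : w ≠ 0)
    (hA : w ^ 4 * a = -4 * A) (hB : w ^ 6 * b = -4 * B) {e u v : (ZMod p)⟦X⟧}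
    (h : Sol a b e u v) : coeff (p - 1) e =
      ((-∑ x, quadraticChar (ZMod p) (x ^ 3 + A * x + B) : ℤ) : ZMod p) := by
  obtain ⟨m, hm⟩ := hp.out.odd_of_ne_two h2
  have hc : ringChar (ZMod p) ≠ 2 := by rwa [ZMod.ringChar_zmod_n]
  have two : (2 : ZMod p) ≠ 0 := Ring.two_ne_zero hc
  have h1 := count hm (g := cub a b ^ m)
    (Polynomial.natDegree_pow_le.trans (Nat.mul_le_mul_left m (cub_deg a b)))
  rw [show p - 1 = 2 * m by omega, cartier hm h, ← neg_neg (Polynomial.coeff _ _), ← h1,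
    Int.cast_neg, Int.cast_sum, ← Equiv.sum_comp (Equiv.mulLeft₀ (w ^ 2) (pow_ne_zero 2 hw))
      fun x => ((quadraticChar (ZMod p) (x ^ 3 + A * x + B) : ℤ) : ZMod p)]
  refine congrArg _ (Finset.sum_congr rfl fun x _ => ?_)
  have h3 : (w ^ 3 / 2) ^ (2 * m) = 1 := by
    rw [show 2 * m = p - 1 by omega]
    exact ZMod.pow_card_sub_one_eq_one (div_ne_zero (pow_ne_zero 3 hw) two)
  rw [quadraticChar_eq_pow_of_char_ne_two' hc, ZMod.card, show p / 2 = m by omega,
    Polynomial.eval_pow, ← one_mul (_ ^ m), ← h3, pow_mul, ← mul_pow]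
  congr 1
  simp only [cub, Polynomial.eval_sub, Polynomial.eval_mul, Polynomial.eval_pow, Polynomial.eval_C,
    Polynomial.eval_X, Equiv.mulLeft₀_apply]
  field_simp
  linear_combination -w ^ 2 * x * hA - hB

end Vale.Agent.P004Z.EF
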