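import Vale.Agent.P004Z.EF.Core
import Vale.Agent.P004Z.EF.Cong
import Vale.Agent.P004M.TE.All
import Vale.Agent.P004N.H974.RS

/-! # P004, block GZ, row EF: the elliptic curve of a rational newform -/

set_option autoImplicit false
set_option linter.all false

open UpperHalfPlane CongruenceSubgroup Filter PowerSeries
open scoped MatrixGroups

noncomputable section

namespace Vale.Agent.P004Z.EF

open P004N Vale.Agent.P022 Vale.Agent.P022.H218.L3 Vale.Agent.P022.H236.L3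
  Vale.Agent.P022.H542.L3 Vale.Agent.P027M.ES
open Vale.Agent.P027H (IsLat wp dwp g2 g3 scl hom_scl)

theorem Val.smul {τ : ℍ} {x : Mer} {c : ℂ} (h : Val τ x c) (r : ℂ) :
    Val τ (algebraMap ℂ Mer r * x) (r * c) := by
  obtain ⟨g, k, h0, e1, e2⟩ := h
  refine ⟨algebraMap ℂ Hol r * g, k, h0, ?_, ?_⟩
  · rw [mul_assoc, e1, map_mul, ← IsScalarTower.algebraMap_apply]
  · show r * (g : ℍ → ℂ) τ = _
    rw [e2, mul_assoc]

theorem RatS.smul {s : LS} (h : RatS s) (r : ℚ) : RatS (HahnSeries.C (r : ℂ) * s) := fun n => by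
  obtain ⟨t, ht⟩ := h n
  exact ⟨r * t, by rw [HahnSeries.C_mul_eq_smul, HahnSeries.coeff_smul, ht]; simp⟩

namespace Al

theorem ex_ring {D p : ℕ} [Fact p.Prime] (hD : 0 < D) (hp : ¬ p ∣ D) :
    ∃ (L : Type) (_ : CommRing L) (ι : L →+* ℂ) (_ : L →+* ZMod p), Function.Injective ι ∧
      ∀ (c : ℂ) (d k : ℕ) (z : ℤ), d ∣ D → (d : ℂ) ^ k * c = z → ∃ l, ι l = c := by
  have h0 : (D : ℂ) ≠ 0 := Nat.cast_ne_zero.2 hD.ne'
  have h1 : IsUnit (Int.castRingHom ℂ (D : ℤ)) := by simpa using hD.ne'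
  have h2 : IsUnit (Int.castRingHom (ZMod p) (D : ℤ)) := by
    simpa using mt (ZMod.natCast_eq_zero_iff D p).1 hp
  refine ⟨Localization.Away (D : ℤ), inferInstance, IsLocalization.Away.lift (D : ℤ) h1,
    IsLocalization.Away.lift (D : ℤ) h2, (IsLocalization.lift_injective_iff _).2 fun x y =>
      ⟨fun h => by simpa using congrArg (IsLocalization.Away.lift (D : ℤ) h1) h,
        fun h => congrArg _ (Int.cast_injective (α := ℂ) h)⟩, ?_⟩
  rintro c d k z ⟨m, hm⟩ e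
  have h3 := congrArg (IsLocalization.Away.lift (D : ℤ) h1)
    (IsLocalization.Away.mul_invSelf (S := Localization.Away (D : ℤ)) (D : ℤ))
  rw [map_mul, map_one, IsLocalization.Away.lift_eq, eq_intCast, Int.cast_natCast] at h3
  refine ⟨z * m ^ k * IsLocalization.Away.invSelf (D : ℤ) ^ k,
    mul_left_cancel₀ (pow_ne_zero k h0) ?_⟩
  rw [map_mul, map_mul, map_pow, map_pow, map_intCast, map_natCast, mul_left_comm, ← mul_pow, h3,
    ← e, hm, Nat.cast_mul]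
  ring

theorem congr_p {a : ℕ → ℤ} {g h : ℂ} {u v : ℂ⟦X⟧}
    (hs : Sol g h (PowerSeries.mk fun n => (a (n + 1) : ℂ)) u v) {A B : ℤ} {w D E p : ℕ}
    (hA : (w : ℂ) ^ 4 * g = (-4 * A : ℤ)) (hB : (w : ℂ) ^ 6 * h = (-4 * B : ℤ))
    (hu : ∀ n, ∃ (k : ℕ) (z : ℤ), (D : ℂ) ^ k * coeff n u = z)
    (hv : ∀ n, ∃ (k : ℕ) (z : ℤ), (E : ℂ) ^ k * coeff n v = z) (h0 : 0 < w * D * E)
    [hp : Fact p.Prime] (h1 : ¬ p ∣ w * D * E) (h2 : ¬ (p : ℤ) ∣ 2 * (4 * A ^ 3 + 27 * B ^ 2)) :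
    (p : ℤ) ∣ al A B p - a p := by
  obtain ⟨L, _, ι, π, hι, k⟩ := ex_ring h0 h1
  obtain ⟨g, rfl⟩ := k g w 4 _ ((dvd_mul_right w D).mul_right E) hA
  obtain ⟨h, rfl⟩ := k h w 6 _ ((dvd_mul_right w D).mul_right E) hB
  choose U hU using fun n => (hu n).elim fun j hj => hj.elim fun z hz =>
    k _ D j z ((dvd_mul_left D w).mul_right E) hz
  choose V hV using fun n => (hv n).elim fun j hj => hj.elim fun z hz =>
    k _ E j z (dvd_mul_left E _) hz
  have h3 : Sol g h (PowerSeries.mk fun n => (a (n + 1) : L)) (PowerSeries.mk U)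
      (PowerSeries.mk V) := Sol.of_map hι (by
    convert hs using 1 <;> ext n <;> simp [hU, hV])
  have hA' : (w : L) ^ 4 * g = -4 * A := hι (by simpa [map_ofNat] using hA)
  have hB' : (w : L) ^ 6 * h = -4 * B := hι (by simpa [map_ofNat] using hB)
  have h4 := cong (A := A) (B := B) (w := w) (by rintro rfl; exact h2 (dvd_mul_right _ _))
    (fun e => h1 ((((ZMod.natCast_eq_zero_iff w p).1 e).mul_right D).mul_right E))
    (by simpa [map_ofNat] using congrArg π hA') (by simpa [map_ofNat] using congrArg π hB')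
    (h3.map π)
  rw [coeff_map, coeff_mk, Nat.sub_add_cancel hp.out.pos, map_intCast] at h4
  refine (ZMod.intCast_eq_intCast_iff_dvd_sub _ _ p).1 (h4.trans (congrArg _ ?_))
  rw [show al A B p = _ from P004M.TE.al_eq h2, P004M.TE.cs]
  exact congrArg (fun i : DecidableEq (ZMod p) =>
    -∑ x : ZMod p, @quadraticChar (ZMod p) _ _ i (x ^ 3 + A * x + B)) (Subsingleton.elim _ _)

theorem small {a : ℕ → ℤ} {C δ : ℝ} (hδ : 0 < δ)
    (h : ∀ n : ℕ, 1 ≤ n → (a n : ℝ) ^ 2 ≤ C * (n : ℝ) ^ (2 - δ)) :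
    ∀ᶠ n : ℕ in atTop, ∀ t : ℤ, t ^ 2 ≤ 4 * n → (n : ℤ) ∣ t - a n → t = a n := by
  filter_upwards [((tendsto_rpow_atTop hδ).comp tendsto_natCast_atTop_atTop).eventually_gt_atTop
    (4 * C), eventually_gt_atTop 16] with n h1 h2 t ht hd
  have n0 : (16 : ℝ) < n := by exact_mod_cast h2
  have h3 := h n (by omega)
  have h4 : (0 : ℝ) < (n : ℝ) ^ δ := Real.rpow_pos_of_pos (by linarith) _
  rw [Real.rpow_sub (by linarith), Real.rpow_two, ← mul_div_assoc, le_div_iff₀ h4] at h3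
  have h5 : 4 * (a n : ℝ) ^ 2 ≤ (n : ℝ) ^ 2 := le_of_mul_le_mul_right
    (by have : 4 * C < (n : ℝ) ^ δ := h1
        nlinarith [sq_nonneg (n : ℝ)]) h4
  have h6 : 4 * a n ^ 2 ≤ (n : ℤ) ^ 2 := by exact_mod_cast h5
  have h7 : (16 : ℤ) < n := by exact_mod_cast h2
  refine sub_eq_zero.1 (Int.eq_zero_of_abs_lt_dvd hd (abs_lt_of_sq_lt_sq ?_ (by omega)))
  nlinarith [sq_nonneg (t + a n)]

end Al

open Al in
/-- **the modular parametrisation** -/
theorem par : PAR := by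
  intro N f a ε h
  have : NeZero N := ⟨h.pos.ne'⟩
  have ec : (fun n => (((a n : ℝ)) : ℂ)) = fun n => (a n : ℂ) := funext fun n => by simp
  have hq : QE f fun n => (a n : ℂ) := ec ▸ h.qe
  have a0 : a 0 = 0 := by exact_mod_cast h.zero
  have hP := prim_Pr hq (by simp [a0])
  have hL := isLat h one_pos (fun p _ _ => ⟨a p, rfl⟩) hP
  obtain ⟨x, y, u, v, hx, hy, vx, vy, ex, ey, hs, ⟨r, hr⟩, ⟨s, hs'⟩, ru, rv⟩ :=
    core h.s2 hq a0 (by exact_mod_cast h.one) rfl hL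
  generalize hF : (Pr fun n => (a n : ℂ)) = F at *
  let w : ℕ := 2 * r.den * s.den
  have wp0 : 0 < w := Nat.mul_pos (Nat.mul_pos two_pos r.pos) s.pos
  have w0 : (w : ℂ) ≠ 0 := Nat.cast_ne_zero.2 wp0.ne'
  have e1 : (r.den : ℂ) * r = r.num := by exact_mod_cast Rat.den_mul_eq_num r
  have e2 : (s.den : ℂ) * s = s.num := by exact_mod_cast Rat.den_mul_eq_num s
  obtain ⟨A, hA⟩ : ∃ A : ℤ, (w : ℂ) ^ 4 * g2 (Lam N F) = (-4 * A : ℤ) :=
    ⟨-4 * r.den ^ 3 * s.den ^ 4 * r.num, by simp only [w, hr]; push_cast; rw [← e1]; ring⟩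
  obtain ⟨B, hB⟩ : ∃ B : ℤ, (w : ℂ) ^ 6 * g3 (Lam N F) = (-4 * B : ℤ) :=
    ⟨-16 * r.den ^ 6 * s.den ^ 5 * s.num, by simp only [w, hs']; push_cast; rw [← e2]; ring⟩
  have hm := hom_scl (inv_ne_zero w0) (Lam N F)
  have k2 : g2 (scl (w : ℂ)⁻¹ (Lam N F)) = -4 * A := by rw [hm.g2, inv_inv, hA]; push_cast; rfl
  have k3 : g3 (scl (w : ℂ)⁻¹ (Lam N F)) = -4 * B := by rw [hm.g3, inv_inv, hB]; push_cast; rfl
  have hd : 4 * A ^ 3 + 27 * B ^ 2 ≠ 0 := fun e => (hm.isLat hL).disc_ne (by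
    have : (4 : ℂ) * A ^ 3 + 27 * B ^ 2 = 0 := by exact_mod_cast e
    rw [k2, k3]
    linear_combination this)
  refine ⟨A, B, w, scl (w : ℂ)⁻¹ (Lam N F), fun τ => (w : ℂ)⁻¹ * F τ,
    algebraMap ℂ Mer ((w ^ 2 : ℚ) : ℂ) * x, algebraMap ℂ Mer ((w ^ 3 / 2 : ℚ) : ℂ) * y, wp0,
    fun τ => by rw [hF, div_eq_inv_mul], hm.isLat hL, fun z => ?_, k2, k3, hd,
    mul_mem (IntermediateField.algebraMap_mem _ _) hx,
    mul_mem (IntermediateField.algebraMap_mem _ _) hy, fun τ hτ => ?_, fun τ hτ => ?_,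
    ⟨_, (ExM.const 1 _).mul ex, ru.smul _⟩, ⟨_, (ExM.const 1 _).mul ey, rv.smul _⟩, ?_⟩
  · rw [P027H.mem_scl, inv_inv, mem_Lam h.s2 hP]
    refine exists_congr fun γ => and_congr_right fun _ => forall_congr' fun τ => ?_
    rw [← mul_sub, inv_mul_eq_iff_eq_mul₀ w0]
  · convert (vx τ (mt (hm.2 _).1 hτ)).smul _ using 1
    rw [hm.wp, inv_inv]
    push_cast
    rfl
  · convert (vy τ (mt (hm.2 _).1 hτ)).smul _ using 1
    rw [hm.dwp, inv_inv]
    push_cast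
    ring
  · obtain ⟨-, D, hD, iu⟩ := rat N h.pos x hx _ ex ru
    obtain ⟨-, E, hE, iv⟩ := rat N h.pos y hy _ ey rv
    obtain ⟨C, δ, -, hδ, hb⟩ := pfPowN N f _ ε h
    have h0 : 0 < w * D * E := Nat.mul_pos (Nat.mul_pos wp0 hD) hE
    have := (small hδ hb).and ((eventually_gt_atTop (w * D * E)).and
      (eventually_gt_atTop (2 * (4 * A ^ 3 + 27 * B ^ 2)).natAbs))
    rw [← Nat.cofinite_eq_atTop] at this
    refine (Filter.eventually_cofinite.1 this).subset fun p ⟨hp, ne⟩ ⟨h1, h2, h3⟩ => ne ?_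
    have := Fact.mk hp
    have h4 : ¬ (p : ℤ) ∣ 2 * (4 * A ^ 3 + 27 * B ^ 2) := fun e => (Nat.le_of_dvd
      (Int.natAbs_pos.2 (mul_ne_zero two_ne_zero hd)) (Int.natCast_dvd.1 e)).not_gt h3
    refine h1 _ ?_ (congr_p hs hA hB (fun n => coeff_ls (-2) u n ▸ iu _)
      (fun n => coeff_ls (-3) v n ▸ iv _) h0 (fun e => (Nat.le_of_dvd h0 e).not_gt h2) h4)
    rw [show al A B p = _ from P004M.TE.al_eq h4, neg_sq]
    exact P004M.TE.cs_le h4

theorem new : NEW := by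
  intro N f a hf
  obtain ⟨M, g, b, ε, h1, -, h3, h4, h5⟩ := pfNewP N f a hf 1 (Or.inl ⟨rfl, squarefree_one⟩)
  have h6 : ∀ n : ℕ, n.Coprime N → b n = a n := fun n hn => by
    rw [h3 n (by simpa using hn)]
    simp [Vale.Agent.P004H.H871.kr]
  obtain ⟨c, rfl⟩ := nf_int h1 hf.pos fun p hp hN =>
    ⟨a p, h6 p ((Nat.Prime.coprime_iff_not_dvd hp).2 hN)⟩
  exact ⟨M, g, c, ε, h1, by simpa using h4, fun n hn => Int.cast_injective (α := ℝ) (h6 n hn), h5⟩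

end Vale.Agent.P004Z.EF
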