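import Vale.Agent.P027M.ES.All
import Vale.Agent.P027M.ES.Inj0
import Vale.Agent.P004N.H65.Fin
import Vale.Agent.P027H.Lat0

/-! # P004, block GZ, row EF: the periods of a rational newform are a lattice -/

set_option autoImplicit false
set_option linter.all false

open UpperHalfPlane CongruenceSubgroup Filter Topology
open scoped MatrixGroups Manifold ModularForm Real ComplexConjugate

noncomputable section

namespace Vale.Agent.P004Z.EF

open P004N P004N.H461 Vale.Agent.P022.H218.L3 Vale.Agent.P027M.ES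
open Vale.Agent.P027H (IsLat)

variable {N : ℕ} {f g F G : ℍ → ℂ} {c : ℕ → ℂ}

theorem prim_Pr (h : QE f c) (h0 : c 0 = 0) : Prim f (Pr c) := by
  intro τ
  let y : ℍ := ⟨(τ.im / 2 : ℝ) * Complex.I, by simpa using τ.im_pos⟩
  have hs := summable_norm_iff.2 (h y).summable
  have hU : IsOpen {w : ℂ | τ.im / 2 < w.im} := isOpen_lt continuous_const Complex.continuous_im
  have hτ : (τ : ℂ) ∈ {w : ℂ | τ.im / 2 < w.im} := half_lt_self τ.im_pos
  have hd : ∀ (n : ℕ) (w : ℂ), HasDerivAt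
      (fun w : ℂ => c n / n * Complex.exp (2 * π * Complex.I * n * w))
      (2 * π * Complex.I * (c n * Complex.exp (2 * π * Complex.I * n * w))) w := fun n w => by
    refine ((((hasDerivAt_id w).const_mul (2 * π * Complex.I * n)).cexp).const_mul
      (c n / n)).congr_deriv ?_
    rcases eq_or_ne n 0 with rfl | hn
    · simp [h0]
    · have : (n : ℂ) ≠ 0 := Nat.cast_ne_zero.2 hn
      simp only [id]
      field_simp
  have hb : ∀ (n : ℕ) (w : ℂ), w ∈ {w : ℂ | τ.im / 2 < w.im} →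
      ‖c n / n * Complex.exp (2 * π * Complex.I * n * w)‖ ≤
        ‖c n * Complex.exp (2 * π * Complex.I * n * y)‖ := fun n w hw => by
    rw [norm_mul, norm_mul, Complex.norm_exp, Complex.norm_exp]
    refine mul_le_mul ?_ (Real.exp_le_exp.2 ?_) (Real.exp_pos _).le (norm_nonneg _)
    · rcases eq_or_ne n 0 with rfl | hn
      · simp
      · rw [norm_div, Complex.norm_natCast]
        exact div_le_self (norm_nonneg _) (by exact_mod_cast Nat.pos_of_ne_zero hn)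
    · have hw' : τ.im / 2 < w.im := hw
      have : (0 : ℝ) ≤ 2 * π * n := by positivity
      simp [y]
      nlinarith
  have h1 := Complex.hasSum_deriv_of_summable_norm hs
    (fun n w _ => (hd n w).differentiableAt.differentiableWithinAt) hU hb hτ
  have h2 := (Complex.differentiableOn_tsum_of_summable_norm hs
    (fun n w _ => (hd n w).differentiableAt.differentiableWithinAt) hU hb).differentiableAt
      (hU.mem_nhds hτ)
  simp only [(hd _ _).deriv] at h1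
  have h3 := h2.hasDerivAt
  rw [h1.unique ((h τ).mul_left _)] at h3
  refine h3.congr_of_eventuallyEq ?_
  filter_upwards [(isOpen_lt continuous_const Complex.continuous_im).mem_nhds
    (show (τ : ℂ) ∈ {w : ℂ | 0 < w.im} from τ.im_pos)] with w hw
  rw [Function.comp_apply, ofComplex_apply_of_im_pos hw]
  rfl

theorem cf_of (h : S2 N f) : IsCF (Gamma0 N) f :=
  ⟨⟨h.holo, h.slash, fun γ => (h.zero γ).boundedAtFilter⟩, h.zero⟩

theorem s2_of (h : IsCF (Gamma0 N) f) : S2 N f := ⟨h.1.hol, h.1.slash, h.2⟩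

theorem g0_le (N M : ℕ) : Gamma0 (M * N) ≤ Gamma0 N := fun γ hγ =>
  Gamma0_mem.2 ((ZMod.intCast_zmod_eq_zero_iff_dvd _ _).2 ((Int.natCast_dvd_natCast.2
    (dvd_mul_left N M)).trans ((ZMod.intCast_zmod_eq_zero_iff_dvd _ _).1 (Gamma0_mem.1 hγ))))

theorem mid4 (hN : 0 < N) : P027M.M.Mid (4 * N) (Gamma0 (4 * N)) :=
  ⟨⟨by omega, dvd_mul_right 4 N⟩, fun _ hγ =>
    Gamma0_mem.2 ((ZMod.intCast_zmod_eq_zero_iff_dvd _ _).2 hγ.1), mul_comm N 4 ▸ g0_le 4 N⟩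

theorem add_pow {Γ : Subgroup SL(2, ℤ)} {φ : SL(2, ℤ) → ℂ} (h : AddOn Γ φ) {γ : SL(2, ℤ)}
    (hγ : γ ∈ Γ) (n : ℕ) : φ (γ ^ n) = n * φ γ := by
  induction n with
  | zero => simpa using h 1 Γ.one_mem 1 Γ.one_mem
  | succ n ih => rw [pow_succ, h _ (Γ.pow_mem hγ n) _ hγ, ih]; push_cast; ring

theorem add_conj {Γ : Subgroup SL(2, ℤ)} {φ : SL(2, ℤ) → ℂ} (h : AddOn Γ φ) {γ δ : SL(2, ℤ)}
    (hγ : γ ∈ Γ) (hδ : δ ∈ Γ) : φ (δ * γ * δ⁻¹) = φ γ := by
  have h1 := h _ (Γ.mul_mem (Γ.mul_mem hδ hγ) (Γ.inv_mem hδ)) _ hδ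
  rw [inv_mul_cancel_right, h _ hδ _ hγ] at h1
  linear_combination -h1

/-- **Eichler and Shimura** for parabolic homomorphisms on `Γ₀(N)`, any `N` -/
theorem es0 (hN : 0 < N) {φ : SL(2, ℤ) → ℂ} (ha : AddOn (Gamma0 N) φ)
    (hp : ∀ (γ : SL(2, ℤ)) (n : ℕ), 0 < n → γ * ModularGroup.T ^ n * γ⁻¹ ∈ Gamma0 N →
      φ (γ * ModularGroup.T ^ n * γ⁻¹) = 0) :
    ∃ f g F G : ℍ → ℂ, S2 N f ∧ S2 N g ∧ Prim f F ∧ Prim g G ∧
      ∀ γ ∈ Gamma0 N, ∀ τ, φ γ = per F G γ τ := by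
  have : NeZero (4 * N) := ⟨by omega⟩
  have le := g0_le N 4
  obtain ⟨f, g, F, G, hf, hg, hF, hG, e⟩ := esc.1 _ _ (mid4 hN) φ
    fun γ hγ δ hδ => ha γ (le hγ) δ (le hδ)
  let Γ := (Gamma0 (4 * N)).normalCore
  have l2 : Γ ≤ Gamma0 (4 * N) := Subgroup.normalCore_le _
  have cj : ∀ δ : SL(2, ℤ), ∀ γ ∈ Γ, δ * γ * δ⁻¹ ∈ Gamma0 (4 * N) := fun δ γ hγ =>
    l2 ((Subgroup.normalCore_normal _).conj_mem γ hγ δ)
  have inv : ∀ δ ∈ Gamma0 N, f ∣[(2 : ℤ)] δ = f ∧ g ∣[(2 : ℤ)] δ = g := fun δ hδ => by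
    have := inj0 Γ _ _ _ _ ((hf.conj δ (cj δ)).sub (hf.mono l2))
      (IsCF.sub ⟨hg.1.conj δ (cj δ), fun γ => by rw [← SlashAction.slash_mul]; exact hg.2 _⟩
        (hg.mono l2)) ((hF.compSL δ).sub hF) ((hG.compSL δ).sub hG) fun γ hγ τ => by
      have e1 := e _ (cj δ γ hγ) (δ • τ)
      rw [add_conj ha (le (l2 hγ)) hδ, e γ (l2 hγ) τ, per, per, ← mul_smul, inv_mul_cancel_right,
        mul_smul] at e1
      simp only [per, Pi.sub_apply, map_sub] at e1 ⊢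
      linear_combination -e1
    exact ⟨sub_eq_zero.1 this.1, sub_eq_zero.1 this.2⟩
  obtain ⟨n, hn, hw⟩ := Inj.exists_width (Gamma0 (4 * N))
  refine ⟨f, g, F, G, ⟨hf.hol, fun δ hδ => (inv δ hδ).1, fun γ =>
    (cusp_of_par cusp hf hF hn (hw γ) fun τ => ?_).2⟩,
    ⟨hg.1.hol, fun δ hδ => (inv δ hδ).2, hg.2⟩, hF, hG, fun γ hγ τ => ?_⟩
  · have h1 := e _ (hw γ) τ
    have h2 := (cusp_prim cusp hg hG hn (hw γ)).2 (γ⁻¹ • τ)
    rw [hp γ n hn (le (hw γ)), per, mul_smul, mul_smul, h2, smul_inv_smul, sub_self, map_zero,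
      add_zero] at h1
    rw [mul_smul, mul_smul]
    exact (sub_eq_zero.1 h1.symm)
  · have h1 := add_pow ha hγ Γ.index
    have h2 := add_pow (addOn_per hF hG (fun δ hδ => (inv δ hδ).1) (fun δ hδ => (inv δ hδ).2) τ)
      hγ Γ.index
    rw [e _ (l2 (Subgroup.pow_index_mem Γ γ)) τ, h2] at h1
    exact (mul_left_cancel₀ (Nat.cast_ne_zero.2 Subgroup.FiniteIndex.index_ne_zero) h1).symm

/-- a correspondence -/
def Cor (N : ℕ) {ι : Type} (α : ι → M2) : Prop :=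
  (∀ i, 0 < (α i).det) ∧ ∀ γ ∈ Gamma0 N, ∃ (σ : ι → ι) (δ : ι → SL(2, ℤ)),
    Function.Injective σ ∧ ∀ i, δ i ∈ Gamma0 N ∧ α i * γ.1 = (δ i).1 * α (σ i)

theorem cor_of {ι : Type} {α : ι → M2} (h0 : ∀ i, 0 < (α i).det)
    (h1 : ∀ γ, G0 N γ → ∀ i, ∃ j δ, G0 N δ ∧ α i * γ = δ * α j)
    (h2 : ∀ i j (δ : M2), δ.det = 1 → α i = δ * α j → i = j) : Cor N α := by
  refine ⟨h0, fun γ hγ => ?_⟩
  have hγ' := (G0_iff N γ).1 hγ
  choose σ δ hδ e using h1 γ.1 hγ'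
  refine ⟨σ, fun i => ⟨δ i, (hδ i).1⟩, fun i j hij => ?_, fun i => ⟨(G0_iff N _).2 (hδ i), e i⟩⟩
  refine h2 i j (δ i * (δ j).adjugate) ((hδ i).mul (hδ j).adj).1
    (mul_right_cancel_det hγ'.det ?_)
  rw [e i, hij, Matrix.mul_assoc, e j, Matrix.mul_assoc, ← Matrix.mul_assoc _ (δ j),
    (hδ j).adj_mul, Matrix.one_mul]

theorem cor_T {p : ℕ} (hp : p.Prime) (h : ¬ p ∣ N) : Cor N (al p) := by
  refine cor_of (fun i => by rw [al_det]; exact_mod_cast hp.pos) (fun γ hγ i => ?_) (al_inj hp)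
  refine al_rep hp h _ (by rw [Matrix.det_mul, al_det, hγ.1, mul_one]) ?_
  have h2 : (al p i) 1 0 = 0 := by cases i <;> simp [al]
  rw [Matrix.mul_apply, Fin.sum_univ_two, h2, zero_mul, zero_add]
  exact hγ.2.mul_left _

theorem cor_U {p : ℕ} (hp : p.Prime) (h : p ∣ N) : Cor N fun j : Fin p => al p (some j) := by
  refine cor_of (fun i => by rw [al_det]; exact_mod_cast hp.pos) (fun γ hγ j => ?_)
    fun i j δ hδ e => Option.some_injective _ (al_inj hp _ _ δ hδ e)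
  have hpγ : (p : ℤ) ∣ γ 1 0 := (Int.natCast_dvd_natCast.2 h).trans hγ.2
  have hγd : γ 0 0 * γ 1 1 - γ 0 1 * γ 1 0 = 1 := by rw [← hγ.1, Matrix.det_fin_two]
  have m00 : (al p (some j) * γ) 0 0 = γ 0 0 + (j : ℕ) * γ 1 0 := by
    simp [al, Matrix.mul_apply, Fin.sum_univ_two]
  have m10 : (al p (some j) * γ) 1 0 = p * γ 1 0 := by
    simp [al, Matrix.mul_apply, Fin.sum_univ_two]
  have m11 : (al p (some j) * γ) 1 1 = p * γ 1 1 := by
    simp [al, Matrix.mul_apply, Fin.sum_univ_two]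
  have h0 : ¬ (p : ℤ) ∣ (al p (some j) * γ) 0 0 := fun h => by
    rw [m00] at h
    have h1 : (p : ℤ) ∣ γ 0 0 := (Int.dvd_add_left (hpγ.mul_left _)).1 h
    exact (Nat.prime_iff_prime_int.1 hp).not_dvd_one
      (hγd ▸ dvd_sub (h1.mul_right _) (hpγ.mul_left _))
  obtain ⟨j', x, hj⟩ := solve hp _ ((al p (some j) * γ) 0 1) h0
  have hm2 := factor_some (p := p) ((j' : ℕ) : ℤ) (al p (some j) * γ) x
    (γ 1 1 - (j' : ℕ) * γ 1 0) (by linear_combination hj) (by rw [m11, m10]; ring)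
  refine ⟨j', _, ⟨det_of_mul hp.pos hm2 ?_ (al_det p (some j')), ?_⟩, hm2⟩
  · rw [Matrix.det_mul, al_det, hγ.1, mul_one]
  · show (N : ℤ) ∣ (al p (some j) * γ) 1 0
    rw [m10]
    exact hγ.2.mul_left _

section cor
variable {ι : Type} [Fintype ι] {α : ι → M2}

/-- the action on primitives -/
def Cor.T (h : Cor N α) (F : ℍ → ℂ) : ℍ → ℂ := ∑ i, fun τ => F (gl (α i) (h.1 i) • τ)

theorem Cor.prim (h : Cor N α) (hF : Prim f F) : Prim (∑ i, sl f (α i)) (h.T F) :=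
  Prim.sum _ fun i _ => by
    rw [sl_pos _ _ (h.1 i)]
    exact hF.comp _ (by simpa using gl_det_pos _ (h.1 i))

theorem Cor.ex (h : Cor N α) {γ : SL(2, ℤ)} (hγ : γ ∈ Gamma0 N) : ∃ δ : ι → SL(2, ℤ),
    (∀ i, δ i ∈ Gamma0 N) ∧ ∀ f F, S2 N f → Prim f F → ∀ τ,
      h.T F (γ • τ) - h.T F τ = ∑ i, (F (δ i • τ) - F τ) := by
  obtain ⟨σ, δ, hσ, e⟩ := h.2 γ hγ
  refine ⟨δ, fun i => (e i).1, fun f F hf hF τ => ?_⟩
  simp only [Cor.T, Finset.sum_apply]
  rw [← (Finite.injective_iff_bijective.1 hσ).sum_comp fun i => F (gl (α i) (h.1 i) • τ),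
    ← Finset.sum_sub_distrib]
  refine Finset.sum_congr rfl fun i _ => ?_
  rw [← hF.period (hf.slash _ (e i).1) (gl (α (σ i)) (h.1 _) • τ)]
  congr 2
  have h1 : 0 < (α i * γ.1).det := by rw [Matrix.det_mul]; simpa using h.1 i
  have h2 := gl_mul (α i) γ.1 (h.1 i) (by simp) h1
  have h3 := gl_mul (δ i).1 (α (σ i)) (by simp) (h.1 _) ((e i).2 ▸ h1)
  rw [gl_SL] at h2 h3
  rw [ModularGroup.sl_moeb, ModularGroup.sl_moeb, ← mul_smul, ← mul_smul, ← h2, ← h3]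
  simp only [(e i).2]

theorem Cor.eig (h : Cor N α) (hf : S2 N f) (hF : Prim f F) {m : ℂ}
    (e : ∑ i, sl f (α i) = m • f) (γ : SL(2, ℤ)) (τ : ℍ) :
    h.T F (γ • τ) - h.T F τ = m * (F (γ • τ) - F τ) := by
  obtain ⟨c, hc⟩ := (e ▸ h.prim hF).exists_sub (hF.smul m)
  have h1 := hc τ
  have h2 := hc (γ • τ)
  simp only [Pi.smul_apply, smul_eq_mul] at h1 h2
  linear_combination h2 - h1

theorem Cor.tr [NeZero N] (h : Cor N α) (hS : ∀ g, S2 N g → S2 N (∑ i, sl g (α i)))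
    (hf : S2 N f) (hF : Prim f F) {m : ℤ} (e : ∑ i, sl f (α i) = (m : ℂ) • f) (l : ℂ →+ ℂ)
    {g g' G G' : ℍ → ℂ} (hg : S2 N g) (hg' : S2 N g') (hG : Prim g G) (hG' : Prim g' G')
    (e' : ∀ γ ∈ Gamma0 N, ∀ τ, l (F (γ • I) - F I) = per G G' γ τ) :
    ∑ i, sl g (α i) = (m : ℂ) • g ∧ ∑ i, sl g' (α i) = (m : ℂ) • g' := by
  have := inj0 (Gamma0 N) _ _ _ _ ((cf_of (hS g hg)).sub ((cf_of hg).smul m)).1
    ((cf_of (hS g' hg')).sub ((cf_of hg').smul m)) ((h.prim hG).sub (hG.smul m))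
    ((h.prim hG').sub (hG'.smul m)) fun γ hγ τ => by
    obtain ⟨δ, hδ, k⟩ := h.ex hγ
    have h1 := congrArg l ((k f F hf hF I).symm.trans (h.eig hf hF e γ I))
    rw [map_sum, ← zsmul_eq_mul, map_zsmul, e' γ hγ τ, zsmul_eq_mul,
      Finset.sum_congr rfl fun i _ => e' _ (hδ i) τ] at h1
    simp only [per, Finset.sum_add_distrib] at h1
    rw [← map_sum, ← k g G hg hG τ, ← k g' G' hg' hG' τ] at h1
    simp only [per, Pi.sub_apply, Pi.smul_apply, smul_eq_mul, map_sub, map_mul, map_intCast] at h1 ⊢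
    linear_combination h1
  exact ⟨sub_eq_zero.1 this.1, sub_eq_zero.1 this.2⟩

end cor

variable {b : ℕ → ℝ} {ε : ℝ}

theorem nf_T (h : NF N f b ε) {p : ℕ} (hp : p.Prime) (hN : ¬ p ∣ N) : Tp p f = (b p : ℂ) • f := by
  refine QE.ext (qe_T h.qe p hp.pos) (H65.qe_congr (QE.smul h.qe _) fun n => ?_)
  have := congrArg (fun x : ℝ => (x : ℂ)) (h.good p hp hN n)
  split_ifs at this ⊢ <;> simpa using this.symm

theorem nf_U (h : NF N f b ε) {p : ℕ} (hp : p.Prime) (hN : p ∣ N) : Up p f = (b p : ℂ) • f := by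
  refine QE.ext (qe_U h.qe p hp.pos) (H65.qe_congr (QE.smul h.qe _) fun n => ?_)
  exact_mod_cast (h.bad p hp hN n).symm

theorem mult1 (h : NF N f b ε) {S : ℕ} (hS : 0 < S) (hg : S2 N g)
    (hT : ∀ p : ℕ, p.Prime → ¬ p ∣ S * N → Tp p g = (b p : ℂ) • g)
    (hU : ∀ p : ℕ, p.Prime → p ∣ N → Up p g = (b p : ℂ) • g) : ∃ c : ℂ, g = c • f := by
  have key : ∀ g, S2 N g → (∀ p : ℕ, p.Prime → ¬ p ∣ S * N → Tp p g = (b p : ℂ) • g) →
      (∀ p : ℕ, p.Prime → p ∣ N → Up p g = (b p : ℂ) • g) → ∀ c, QE g c →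
      H65.V1 (S * N) b b N g c := fun g hg hT hU c hc =>
    ⟨⟨hg, hc, fun p hp h' n => congrFun (QE.unique (hT p hp h' ▸ qe_T hc p hp.pos) (QE.smul hc _)) n⟩,
      fun p hp h' n => congrFun (QE.unique (f := Up p g) (qe_U hc p hp.pos)
        (hU p hp h' ▸ QE.smul hc _)) n⟩
  obtain ⟨d, hd, -⟩ := hg.qe
  exact ⟨d 1, funext (H65.v1_unique (Nat.mul_pos hS h.pos) H503.pfQEx H503.pfQEu H503.pfSupp h.pos
    (key f h.s2 (fun p hp h' => nf_T h hp fun e => h' (e.mul_left S)) (fun p => nf_U h) _ h.qe)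
    (by simp [h.one]) (key g hg hT hU d hd)).2⟩

theorem bad_int (h : NF N f b ε) {p : ℕ} (hp : p.Prime) (hN : p ∣ N) : ∃ m : ℤ, b p = m := by
  by_cases h2 : p ^ 2 ∣ N
  · exact ⟨0, by simp [h.bad2 p hp h2]⟩
  · rcases mul_self_eq_one_iff.1 ((sq _).symm.trans (h.bad1 p hp hN h2)) with e | e
    · exact ⟨1, by simp [e]⟩
    · exact ⟨-1, by simp [e]⟩

theorem addOn_ph (hf : S2 N f) (hF : Prim f F) : AddOn (Gamma0 N) fun γ => F (γ • I) - F I :=
  fun γ hγ δ _ => by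
    have := hF.period (hf.slash γ hγ) I (δ • I)
    simp only [mul_smul]
    linear_combination -this

/-- additive maps are real linear on the periods -/
theorem lin (h : NF N f b ε) {S : ℕ} (hS : 0 < S)
    (hb : ∀ p : ℕ, p.Prime → ¬ p ∣ S → ∃ m : ℤ, b p = m) (hF : Prim f F) (l : ℂ →+ ℂ) :
    ∃ c d : ℂ, ∀ γ ∈ Gamma0 N,
      l (F (γ • I) - F I) = c * (F (γ • I) - F I) + d * conj (F (γ • I) - F I) := by
  have : NeZero N := ⟨h.pos.ne'⟩
  obtain ⟨g, g', G, G', hg, hg', hG, hG', e⟩ := es0 h.pos (φ := fun γ => l (F (γ • I) - F I))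
    (fun γ hγ δ hδ => by rw [← map_add]; exact congrArg l (addOn_ph h.s2 hF γ hγ δ hδ))
    fun γ n hn hγ => by
      have h2 := (cusp_prim cusp (cf_of h.s2) hF hn hγ).2 (γ⁻¹ • I)
      show l _ = 0
      rw [mul_smul, mul_smul, h2, smul_inv_smul, sub_self, map_zero]
  have hT : ∀ p : ℕ, p.Prime → ¬ p ∣ S * N →
      Tp p g = (b p : ℂ) • g ∧ Tp p g' = (b p : ℂ) • g' := fun p hp h' => by
    have hN : ¬ p ∣ N := fun e => h' (e.mul_left S)
    obtain ⟨m, hm⟩ := hb p hp fun e => h' (e.mul_right N)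
    have e1 := nf_T h hp hN
    rw [hm, Complex.ofReal_intCast] at e1 ⊢
    exact (cor_T hp hN).tr (fun g => S2.tp hp hN) h.s2 hF e1 l hg hg' hG hG' e
  have hU : ∀ p : ℕ, p.Prime → p ∣ N →
      Up p g = (b p : ℂ) • g ∧ Up p g' = (b p : ℂ) • g' := fun p hp hN => by
    obtain ⟨m, hm⟩ := bad_int h hp hN
    have e1 := nf_U h hp hN
    rw [hm, Complex.ofReal_intCast] at e1 ⊢
    exact (cor_U hp hN).tr (fun g => S2.up hp hN (dvd_mul_left N p)) h.s2 hF e1 l hg hg' hG hG' e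
  obtain ⟨c, rfl⟩ := mult1 h hS hg (fun p hp h' => (hT p hp h').1) fun p hp h' => (hU p hp h').1
  obtain ⟨d, rfl⟩ := mult1 h hS hg' (fun p hp h' => (hT p hp h').2) fun p hp h' => (hU p hp h').2
  obtain ⟨u, hu⟩ := hG.exists_sub (hF.smul c)
  obtain ⟨v, hv⟩ := hG'.exists_sub (hF.smul d)
  refine ⟨c, conj d, fun γ hγ => ?_⟩
  have e1 := hu I
  have e2 := hu (γ • I)
  have e3 := hv I
  have e4 := hv (γ • I)
  simp only [Pi.smul_apply, smul_eq_mul] at e1 e2 e3 e4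
  rw [e γ hγ I, per, ← map_mul, show G' (γ • I) - G' I = d * (F (γ • I) - F I) by
    linear_combination e4 - e3]
  linear_combination e2 - e1

/-- the group of periods -/
def Lam (N : ℕ) (F : ℍ → ℂ) : Submodule ℤ ℂ :=
  Submodule.span ℤ ((fun γ : SL(2, ℤ) => F (γ • I) - F I) '' (Gamma0 N : Set SL(2, ℤ)))

theorem mem_Lam (hf : S2 N f) (hF : Prim f F) {z : ℂ} :
    z ∈ Lam N F ↔ ∃ γ ∈ Gamma0 N, ∀ τ, F (γ • τ) - F τ = z := by
  have ha := addOn_ph hf hF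
  refine ⟨fun hz => ?_, fun ⟨γ, hγ, e⟩ => Submodule.subset_span ⟨γ, hγ, e I⟩⟩
  suffices h : ∃ γ ∈ Gamma0 N, F (γ • I) - F I = z by
    obtain ⟨γ, hγ, e⟩ := h
    exact ⟨γ, hγ, fun τ => (hF.period (hf.slash γ hγ) τ I).trans e⟩
  rw [Lam, ← Submodule.mem_toAddSubgroup, Submodule.span_int_eq_addSubgroupClosure] at hz
  induction hz using AddSubgroup.closure_induction with
  | mem x hx => exact hx
  | zero => exact ⟨1, one_mem _, by simp⟩
  | add x y _ _ hx hy =>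
    obtain ⟨γ, hγ, rfl⟩ := hx
    obtain ⟨δ, hδ, rfl⟩ := hy
    exact ⟨γ * δ, mul_mem hγ hδ, ha γ hγ δ hδ⟩
  | neg x _ hx =>
    obtain ⟨γ, hγ, rfl⟩ := hx
    have := ha γ hγ γ⁻¹ (inv_mem hγ)
    simp only [mul_inv_cancel, one_smul, sub_self] at this
    exact ⟨γ⁻¹, inv_mem hγ, by linear_combination -this⟩

theorem per_mem (hf : S2 N f) (hF : Prim f F) {γ : SL(2, ℤ)} (hγ : γ ∈ Gamma0 N) (τ : ℍ) :
    F (γ • τ) - F τ ∈ Lam N F :=
  (mem_Lam hf hF).2 ⟨γ, hγ, fun τ' => hF.period (hf.slash γ hγ) τ' τ⟩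

theorem nf_ne (h : NF N f b ε) : f ≠ 0 := fun e => by
  have := QE.zero_eq (e ▸ h.qe) 1
  simp [h.one] at this

theorem ex_two [NeZero N] (hf : S2 N f) (h0 : f ≠ 0) (hF : Prim f F) :
    ∃ z ∈ Lam N F, ∃ w ∈ Lam N F, z * conj w - w * conj z ≠ 0 := by
  by_contra! k
  obtain ⟨u, hu, e⟩ : ∃ u : ℂ, u ≠ 0 ∧ ∀ z ∈ Lam N F, u * z + conj (u * z) = 0 := by
    by_cases k2 : ∃ w ∈ Lam N F, w ≠ 0
    · obtain ⟨w, hw, w0⟩ := k2
      refine ⟨Complex.I * conj w, mul_ne_zero Complex.I_ne_zero ((map_ne_zero _).2 w0),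
        fun z hz => ?_⟩
      simp only [map_mul, Complex.conj_I, Complex.conj_conj]
      linear_combination Complex.I * k z hz w hw
    · push Not at k2
      exact ⟨1, one_ne_zero, fun z hz => by simp [k2 z hz]⟩
  have := (inj0 (Gamma0 N) _ _ _ _ ((cf_of hf).smul u).1 ((cf_of hf).smul u) (hF.smul u)
    (hF.smul u) fun γ hγ τ => by
      simpa only [per, Pi.smul_apply, smul_eq_mul, mul_sub] using e _ (per_mem hf hF hγ τ)).1
  exact h0 ((smul_eq_zero.1 this).resolve_left hu)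

theorem fg_Lam [NeZero N] (hf : S2 N f) (hF : Prim f F) : (Lam N F).FG := by
  have : Group.FG SL(2, ℤ) := Group.fg_iff.2 ⟨{ModularGroup.S, ModularGroup.T},
    SpecialLinearGroup.SL2Z_generators, Set.toFinite _⟩
  let φ : Gamma0 N →* Multiplicative ℂ := MonoidHom.mk'
    (fun γ => Multiplicative.ofAdd (F (γ.1 • I) - F I)) fun γ δ =>
      congrArg Multiplicative.ofAdd (addOn_ph hf hF γ.1 γ.2 δ.1 δ.2)
  have h1 : φ.range.FG := Group.fg_iff_subgroup_fg _ |>.1 inferInstance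
  rw [Submodule.fg_iff_addSubgroup_fg]
  refine (AddSubgroup.fg_iff_mul_fg _).2 (Eq.subst (motive := Subgroup.FG) ?_ h1)
  symm
  ext z
  show z.toAdd ∈ (Lam N F).toAddSubgroup ↔ _
  rw [Submodule.mem_toAddSubgroup, mem_Lam hf hF]
  exact ⟨fun ⟨γ, hγ, e⟩ => ⟨⟨γ, hγ⟩, congrArg Multiplicative.ofAdd (e I)⟩, fun ⟨γ, e⟩ =>
    ⟨γ.1, γ.2, fun τ => (hF.period (hf.slash _ γ.2) τ I).trans (congrArg Multiplicative.toAdd e)⟩⟩

/-- **the periods are a lattice** -/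
theorem isLat (h : NF N f b ε) {S : ℕ} (hS : 0 < S)
    (hb : ∀ p : ℕ, p.Prime → ¬ p ∣ S → ∃ m : ℤ, b p = m) (hF : Prim f F) : IsLat (Lam N F) := by
  have : NeZero N := ⟨h.pos.ne'⟩
  obtain ⟨z, hz, w, hw, hzw⟩ := ex_two h.s2 (nf_ne h) hF
  let L : PeriodPair := ⟨z, w, LinearIndependent.pair_iff.2 fun s t e => by
    have e1 : (s : ℂ) * z + t * w = 0 := by simpa using e
    have e2 := congrArg conj e1
    simp only [map_add, map_mul, Complex.conj_ofReal, map_zero] at e2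
    exact ⟨Complex.ofReal_eq_zero.1 (mul_right_cancel₀ hzw
      (by linear_combination conj w * e1 - w * e2)), Complex.ofReal_eq_zero.1
      (mul_right_cancel₀ hzw (by linear_combination z * e2 - conj z * e1))⟩⟩
  have key : ∀ x ∈ Lam N F, ∃ n : ℕ, 0 < n ∧ (n : ℂ) * x ∈ L.lattice := fun x hx => by
    have h1 : x ∈ Submodule.span ℚ {z, w} := by
      by_contra k
      obtain ⟨l, h1, h2⟩ := Submodule.exists_dual_map_eq_bot_of_notMem k inferInstance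
      obtain ⟨c, d, e⟩ := lin h hS hb hF ((Rat.castHom ℂ).toAddMonoidHom.comp l.toAddMonoidHom)
      have e' : ∀ y ∈ Lam N F, (l y : ℂ) = c * y + d * conj y := fun y hy => by
        obtain ⟨γ, hγ, k⟩ := (mem_Lam h.s2 hF).1 hy
        exact k I ▸ e γ hγ
      have h3 : ∀ y ∈ ({z, w} : Set ℂ), l y = 0 := fun y hy =>
        (Submodule.eq_bot_iff _).1 h2 _ ⟨y, Submodule.subset_span hy, rfl⟩
      have e1 := e' z hz
      have e2 := e' w hw
      rw [h3 z (by simp), Rat.cast_zero] at e1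
      rw [h3 w (by simp), Rat.cast_zero] at e2
      have c0 : c = 0 := mul_right_cancel₀ hzw (by linear_combination conj z * e2 - conj w * e1)
      have d0 : d = 0 := mul_right_cancel₀ hzw (by linear_combination w * e1 - z * e2)
      have := e' x hx
      rw [c0, d0, zero_mul, zero_mul, add_zero] at this
      exact h1 (by exact_mod_cast this)
    obtain ⟨s, t, rfl⟩ := Submodule.mem_span_pair.1 h1
    refine ⟨s.den * t.den, Nat.mul_pos s.pos t.pos, PeriodPair.mem_lattice.2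
      ⟨s.num * t.den, t.num * s.den, ?_⟩⟩
    have hs : (s.num : ℂ) = s * s.den := by exact_mod_cast (Rat.mul_den_eq_num s).symm
    have ht : (t.num : ℂ) = t * t.den := by exact_mod_cast (Rat.mul_den_eq_num t).symm
    simp only [L, Rat.smul_def]
    push_cast
    rw [hs, ht]
    ring
  obtain ⟨s, hs⟩ := fg_Lam h.s2 hF
  choose! n hn using key
  have hs' : ∀ x ∈ s, x ∈ Lam N F := fun x hx => hs ▸ Submodule.subset_span hx
  refine IsLat.of_between ⟨L, rfl⟩ (Submodule.span_le.2 ?_) (n := ∏ x ∈ s, n x)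
    (Finset.prod_pos fun x hx => (hn x (hs' x hx)).1) fun y hy => ?_
  · rintro _ (rfl | rfl)
    exacts [hz, hw]
  · rw [← hs] at hy
    induction hy using Submodule.span_induction with
    | mem x hx =>
      obtain ⟨k, hk⟩ := Finset.dvd_prod_of_mem n hx
      rw [hk, mul_comm (n x), Nat.cast_mul, mul_assoc]
      exact P027H.nat_mul_mem k (hn x (hs' x hx)).2
    | zero => simp
    | add x y _ _ hx hy => rw [mul_add]; exact add_mem hx hy
    | smul a x _ hx => rw [mul_smul_comm]; exact Submodule.smul_mem _ a hx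

/-- the coefficients are integers -/
theorem nf_int (h : NF N f b ε) {S : ℕ} (hS : 0 < S)
    (hb : ∀ p : ℕ, p.Prime → ¬ p ∣ S → ∃ m : ℤ, b p = m) : ∃ a : ℕ → ℤ, b = fun n => (a n : ℝ) := by
  have hF := prim_Pr h.qe (by simp [h.zero])
  obtain ⟨L, hL⟩ := isLat h hS hb hF
  have hp : ∀ p : ℕ, p.Prime → ∃ m : ℤ, b p = m := fun p hp => by
    by_cases hN : p ∣ N
    · exact bad_int h hp hN
    obtain ⟨γ, hγ, e⟩ := (mem_Lam h.s2 hF).1 (hL ▸ L.ω₁_mem_lattice)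
    obtain ⟨δ, hδ, k⟩ := (cor_T hp hN).ex hγ
    have h1 := (k _ _ h.s2 hF I).symm.trans ((cor_T hp hN).eig h.s2 hF (nf_T h hp hN) γ I)
    have h2 : (b p : ℂ) * L.ω₁ ∈ L.lattice := by
      rw [hL, ← e I, ← h1]
      exact Submodule.sum_mem _ fun i _ => per_mem h.s2 hF (hδ i) I
    obtain ⟨m, n, e2⟩ := PeriodPair.mem_lattice.1 h2
    exact ⟨m, (sub_eq_zero.1 (LinearIndependent.pair_iff.1 L.indep (m - b p) n (by
      simp only [Complex.real_smul]; push_cast; linear_combination e2)).1).symm⟩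
  suffices k : ∀ n, ∃ m : ℤ, b n = m by
    choose a ha using k
    exact ⟨a, funext ha⟩
  intro n
  induction n using Nat.strong_induction_on with
  | _ n ih =>
    rcases Nat.eq_zero_or_pos n with rfl | hn
    · exact ⟨0, by simp [h.zero]⟩
    by_cases h1 : n = 1
    · exact ⟨1, by simp [h1, h.one]⟩
    obtain ⟨p, hpp, k, rfl⟩ := Nat.exists_prime_and_dvd h1
    have hk : k < p * k := by
      have := hpp.one_lt
      have : 0 < k := Nat.pos_of_mul_pos_left hn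
      nlinarith
    obtain ⟨m, hm⟩ := hp p hpp
    obtain ⟨m', hm'⟩ := ih k hk
    obtain ⟨m'', hm''⟩ := ih (k / p) ((Nat.div_le_self _ _).trans_lt hk)
    by_cases hN : p ∣ N
    · exact ⟨m * m', by rw [h.bad p hpp hN, hm, hm', Int.cast_mul]⟩
    · have := h.good p hpp hN k
      rw [hm, hm', hm''] at this
      split_ifs at this
      · exact ⟨m * m' - p * m'', by push_cast; linarith⟩
      · exact ⟨m * m', by push_cast; linarith⟩

end Vale.Agent.P004Z.EF
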