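import Vale.Agent.P004Z.EF.St
import Vale.Agent.P022.H236.L3.Int
import Vale.Agent.P022.H790.A1
import Vale.Agent.P027M.M.CPbm
import Vale.Agent.P027M.M.Exp

/-! # P004, block GZ, row EF: the function field of `X₀(N)` is `ℂ(j, j_N)` -/

set_option autoImplicit false
set_option linter.all false

open UpperHalfPlane CongruenceSubgroup ModularForm PowerSeries
open scoped MatrixGroups IntermediateField

noncomputable section

namespace Vale.Agent.P004Z.EF

open Vale.Agent.P022 Vale.Agent.P022.H218.L3 Vale.Agent.P022.H231.L3 Vale.Agent.P022.H236.L3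
  Vale.Agent.P022.H542.L3 Vale.Agent.P027M.M

namespace Gn

theorem exJ : ∃ J : PowerSeries ℤ, constantCoeff J ≠ 0 ∧ ExM 1 (ls (-1) (toCi J)) jM := by
  have e : qExpansion 1 (discriminant : ℍ → ℂ) = toCi H790.A.DZ := H790.A.qExp_disc
  have h0 : coeff 0 H790.A.DZ = 0 := by
    have h := congrArg (coeff 0) H790.A.qExp_disc
    rw [CuspFormClass.qExpansion_coeff_zero CuspForm.discriminant one_pos
      one_mem_strictPeriods_SL, H790.A.toC, coeff_map] at h
    simpa using h.symm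
  have h1 : coeff 1 H790.A.DZ = 1 := by
    have h := congrArg (coeff 1) e
    rw [discriminant_qExpansion_coeff_one, coeff_map] at h
    exact_mod_cast (show ((coeff 1 H790.A.DZ : ℤ) : ℂ) = 1 from h.symm)
  obtain ⟨u, hu⟩ : (X : PowerSeries ℤ) ∣ H790.A.DZ := X_dvd_iff.2 (by simpa using h0)
  have hc : constantCoeff u = 1 := by
    rw [hu, show (1 : ℕ) = 0 + 1 from rfl, coeff_succ_X_mul] at h1
    simpa using h1
  have hD : ExL 1 (ls 1 (toCi u)) discriminant := by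
    have := isMF_exL (N := 1) one_ne_zero (Subgroup.mem_top _) isMF_disc
    rw [Nat.cast_one, e, hu] at this
    have e2 := ls_X_pow 0 1 (toCi u)
    rw [pow_one, zero_add, Nat.cast_one] at e2
    rw [← e2]
    simpa [ls, toCi] using this
  have n0 : ls 1 (toCi u) ≠ 0 := hD.ne_zero isMF_disc.hol disc_ne
  obtain ⟨J, hJ⟩ := div_ls (E4i ^ 3) u 0 1 (hc ▸ isUnit_one)
  have h3 : ls 0 (toCi E4i) ^ 3 = ls 0 (toCi (E4i ^ 3)) := by
    rw [pow_three, ls_mul, ls_mul, pow_three]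
    simp only [toCi, map_mul, add_zero]
  refine ⟨J, fun h => ?_, ExL.exM_inc _ ?_⟩
  · rw [div_eq_iff n0, ls_mul] at hJ
    have := congrArg constantCoeff (ls_inj (m := 0) hJ)
    have k : ∀ A : PowerSeries ℤ, constantCoeff (toCi A) = ((constantCoeff A : ℤ) : ℂ) := fun A => by
      rw [← coeff_zero_eq_constantCoeff_apply, coeff_map, coeff_zero_eq_constantCoeff_apply]
      rfl
    rw [map_mul, k, k, h, Int.cast_zero, zero_mul, map_pow] at this
    exact (E4i_unit.pow 3).ne_zero (by exact_mod_cast this)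
  · have := (exL_E4_one.pow 3).div one_ne_zero hD n0
    rw [h3, hJ] at this
    exact this

theorem act_jN {N : ℕ} (hN : 0 < N) (γ : SL(2, ℤ)) {B : M2} (hB : 0 < B.det) (g : SL(2, ℤ))
    (e : !![(N : ℤ), 0; 0, 1] * (γ : M2) = (g : M2) * B) : act γ⁻¹ (jN N hN) = pbz B hB jM := by
  have h1 : 0 < ((g : M2) * B).det := by rw [Matrix.det_mul]; exact mul_pos (SL_pos g) hB
  rw [← pbz_SL, jN, ← pbz_mul _ _ (e ▸ h1), pbz_congr e _ h1, pbz_mul (SL_pos g) hB, pbz_SL,
    act_eq_self jM_mem (Subgroup.mem_top _)]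

theorem jN_mem {N : ℕ} (hN : 0 < N) : jN N hN ∈ MF (Gamma0 N) := by
  have h := (sPbM _ (diag_pos hN)).1 1 one_pos jM (MF_mono le_top jM_mem)
  have : NeZero (1 * (!![(N : ℤ), 0; 0, 1] : M2).det.natAbs) := ⟨by simp; omega⟩
  refine mem_MF_of_fixed _ h fun γ hγ => ?_
  obtain ⟨c, hc⟩ := (ZMod.intCast_zmod_eq_zero_iff_dvd _ _).1 (Gamma0_mem.1 (inv_mem hγ))
  have hd := γ⁻¹.det_coe
  rw [Matrix.det_fin_two] at hd
  have := act_jN hN γ⁻¹ (diag_pos hN) ⟨!![γ⁻¹ 0 0, N * γ⁻¹ 0 1; c, γ⁻¹ 1 1], by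
    rw [Matrix.det_fin_two_of]; linear_combination hd + γ⁻¹ 0 1 * hc⟩ (by
    show _ = !![γ⁻¹ 0 0, N * γ⁻¹ 0 1; c, γ⁻¹ 1 1] * _
    generalize γ⁻¹ = δ at hc
    ext i j
    fin_cases i <;> fin_cases j <;> simp [Matrix.mul_apply, Fin.sum_univ_two, hc, mul_comm])
  rwa [inv_inv] at this

theorem ex_jN {N : ℕ} (hN : 0 < N) {s : LS} (h : ExM 1 s jM) : ExM 1 (sb N hN s) (jN N hN) :=
  h.mulTau hN (pb_pbz _ _) (dg_coe hN)

theorem stab {N : ℕ} (hN : 0 < N) {γ : SL(2, ℤ)} (h : act γ (jN N hN) = jN N hN) :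
    γ ∈ Gamma0 N := by
  have h1 : 0 < (!![(N : ℤ), 0; 0, 1] * ((γ⁻¹ : SL(2, ℤ)) : M2)).det := by
    rw [Matrix.det_mul]; exact mul_pos (diag_pos hN) (SL_pos _)
  obtain ⟨g, a, d, b, ha, hd, e⟩ := Pbm.hermite _ h1
  have h2 := congrArg Matrix.det e
  rw [Matrix.det_mul, Matrix.det_mul, g.det_coe, γ⁻¹.det_coe, Matrix.det_fin_two_of,
    Matrix.det_fin_two_of] at h2
  have h3 : (N : ℤ) = a * d := by linear_combination h2
  have hB : 0 < (!![(a : ℤ), b; 0, (d : ℤ)] : M2).det := by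
    rw [Matrix.det_fin_two_of]; simp; positivity
  have h4 := act_jN hN γ⁻¹ hB g e
  rw [inv_inv, h] at h4
  obtain ⟨J, hJ, hs⟩ := exJ
  have h5 := (Exp.aff b ha hd one_pos hB hs).unique (by omega)
    (h4 ▸ exM_period hd one_ne_zero (ex_jN hN hs))
  have h6 := congrArg (fun s : LS => s.coeff (d * (N * -1))) h5
  simp only [coeff_sb_mul] at h6
  rw [show (d : ℤ) * (N * -1) = a * -(d * d) by rw [h3]; ring, coeff_sb_mul, rs_apply] at h6
  have h7 : (ls (-1) (toCi J)).coeff (-1) ≠ 0 := by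
    have := coeff_ls (-1) (toCi J) 0
    rw [Nat.cast_zero, add_zero] at this
    rw [this]
    simpa using hJ
  have h8 : d = 1 := by
    by_contra k
    have : -((d : ℤ) * d) < -1 := by
      have : (2 : ℤ) ≤ d := by omega
      nlinarith
    exact h7 (h6.symm.trans (mul_eq_zero_of_right _ (coeff_ls_of_lt _ _ this)))
  have h9 := congrFun (congrFun e 1) 0
  rw [← inv_mem_iff, Gamma0_mem, ZMod.intCast_zmod_eq_zero_iff_dvd]
  generalize γ⁻¹ = δ at h9
  simp [Matrix.mul_apply, Fin.sum_univ_two] at h9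
  exact ⟨g 1 0, by rw [h9, h3, h8]; simp [mul_comm]⟩

end Gn

open Gn

theorem gen : GEN := fun N hN => by
  have : NeZero N := ⟨hN.ne'⟩
  have le : Gamma N ≤ Gamma0 N := fun γ hγ => Gamma0_mem.2 (Gamma_mem.1 hγ).2.2.1
  refine le_antisymm (fun x hx => ?_) (IntermediateField.adjoin_le_iff.2 ?_)
  · let p : MF (Gamma N) := ⟨jM, MF_mono le_top jM_mem⟩
    let q : MF (Gamma N) := ⟨jN N hN, MF_mono le (jN_mem hN)⟩
    obtain ⟨h1, h2, h3, -, -⟩ := galois (Γ := ⊤) (Γ' := Gamma N)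
      (fun γ _ δ hδ => (Gamma_normal N).conj_mem δ hδ γ) p MF_top
    have hle : ℂ⟮p⟯ ≤ IntermediateField.adjoin ℂ {p, q} :=
      IntermediateField.adjoin.mono ℂ _ _ (by simp)
    have h5 : (⟨x, MF_mono le hx⟩ : MF (Gamma N)) ∈ IntermediateField.extendScalars hle := by
      rw [← IsGalois.fixedField_fixingSubgroup (IntermediateField.extendScalars hle),
        IntermediateField.mem_fixedField_iff]
      intro g hg
      rw [IntermediateField.mem_fixingSubgroup_iff] at hg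
      obtain ⟨γ, -, e⟩ := h3 g
      have := e q
      rw [hg q (IntermediateField.subset_adjoin ℂ {p, q} (by simp))] at this
      exact Subtype.ext ((e _).trans (act_eq_self hx (stab hN this.symm)))
    have h6 : x ∈ (IntermediateField.adjoin ℂ {p, q}).map (MF (Gamma N)).val := ⟨_, h5, rfl⟩
    rwa [IntermediateField.adjoin_map, Set.image_pair] at h6
  · rintro _ (rfl | rfl)
    exacts [MF_mono le_top jM_mem, jN_mem hN]

namespace Gn

theorem exM_ae {R : Type} [CommRing R] [Algebra R Mer] [Algebra R LS]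
    (h0 : ∀ a, ExM 1 (algebraMap R LS a) (algebraMap R Mer a)) {v : Fin 2 → Mer} {s : Fin 2 → LS}
    (h : ∀ i, ExM 1 (s i) (v i)) (P : MvPolynomial (Fin 2) R) :
    ExM 1 (MvPolynomial.aeval s P) (MvPolynomial.aeval v P) := by
  induction P using MvPolynomial.induction_on with
  | C a => rw [MvPolynomial.aeval_C, MvPolynomial.aeval_C]; exact h0 a
  | add p q hp hq => rw [map_add, map_add]; exact hp.add hq
  | mul_X p i hp =>
    rw [map_mul, map_mul, MvPolynomial.aeval_X, MvPolynomial.aeval_X]; exact hp.mul (h i)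

theorem exM_aeval {v : Fin 2 → Mer} {s : Fin 2 → LS} (h : ∀ i, ExM 1 (s i) (v i))
    (P : MvPolynomial (Fin 2) ℂ) : ExM 1 (MvPolynomial.aeval s P) (MvPolynomial.aeval v P) :=
  exM_ae (fun a => algMap_ls a ▸ ExM.const 1 a) h P

theorem exM_aevalZ {v : Fin 2 → Mer} {s : Fin 2 → LS} (h : ∀ i, ExM 1 (s i) (v i))
    (P : MvPolynomial (Fin 2) ℤ) : ExM 1 (MvPolynomial.aeval s P) (MvPolynomial.aeval v P) :=
  exM_ae (fun a => by simpa using ExM.const 1 (a : ℂ)) h P

/-- series with coefficients in a subring -/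
def CS (A : Subring ℂ) : Subring LS where
  carrier := {s | ∀ n, s.coeff n ∈ A}
  mul_mem' {a b} ha hb n := by
    rw [HahnSeries.coeff_mul]
    exact A.sum_mem fun _ _ => A.mul_mem (ha _) (hb _)
  one_mem' n := by
    rw [HahnSeries.coeff_one]
    split_ifs
    exacts [A.one_mem, A.zero_mem]
  add_mem' {a b} ha hb n := A.add_mem (ha n) (hb n)
  zero_mem' n := A.zero_mem
  neg_mem' {a} ha n := A.neg_mem (ha n)

theorem ls_mem {A : Subring ℂ} (m : ℤ) {F : PowerSeries ℂ} (h : ∀ n, coeff n F ∈ A) :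
    ls m F ∈ CS A := fun n => by
  rcases lt_or_ge n m with k | k
  · rw [coeff_ls_of_lt _ _ k]; exact A.zero_mem
  · obtain ⟨l, rfl⟩ : ∃ l : ℕ, n = m + l := ⟨(n - m).toNat, by omega⟩
    rw [coeff_ls]; exact h l

theorem inv_mem {A : Subring ℂ} {q : LS} (h : q ∈ CS A) (h1 : (q.coeff q.order)⁻¹ ∈ A) :
    q⁻¹ ∈ CS A := by
  rcases eq_or_ne q 0 with rfl | h0
  · rw [inv_zero]; exact zero_mem _
  have n0 : q.coeff q.order ≠ 0 := HahnSeries.coeff_order_eq_zero.not.2 h0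
  let U : PowerSeries A := PowerSeries.mk fun n => ⟨q.coeff (q.order + n), h _⟩
  have e : q = ls q.order (map A.subtype U) :=
    ls_ext (fun n => by simp [U]) fun k hk => HahnSeries.coeff_eq_zero_of_lt_order hk
  let u : Aˣ := ⟨⟨_, h q.order⟩, ⟨_, h1⟩, Subtype.ext (mul_inv_cancel₀ n0),
    Subtype.ext (inv_mul_cancel₀ n0)⟩
  have h2 : U * invOfUnit U u = 1 := mul_invOfUnit U u (Subtype.ext (by simp [U, u]))
  have h3 : q * ls (-q.order) (map A.subtype (invOfUnit U u)) = 1 := by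
    nth_rewrite 1 [e]
    rw [ls_mul, add_neg_cancel, ← map_mul, h2, map_one, ls_zero_one]
  rw [inv_eq_of_mul_eq_one_right h3]
  exact ls_mem _ fun n => by rw [coeff_map]; exact Subtype.prop _

theorem aeval_mem {A : Subring ℂ} {s : Fin 2 → LS} (h : ∀ i, s i ∈ CS A)
    (P : MvPolynomial (Fin 2) ℤ) : MvPolynomial.aeval s P ∈ CS A := by
  induction P using MvPolynomial.induction_on with
  | C a => rw [MvPolynomial.aeval_C, eq_intCast]; exact intCast_mem (CS A) a
  | add p q hp hq => rw [map_add]; exact add_mem hp hq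
  | mul_X p i hp => rw [map_mul, MvPolynomial.aeval_X]; exact mul_mem hp (h i)

theorem ex_js {N : ℕ} (hN : 0 < N) : ∃ s : Fin 2 → LS, (∀ i, ExM 1 (s i) (![jM, jN N hN] i)) ∧
    ∀ i, s i ∈ CS ⊥ := by
  obtain ⟨J, -, hs⟩ := exJ
  have h1 : ls (-1) (toCi J) ∈ CS ⊥ := ls_mem _ fun n => by
    rw [coeff_map]; exact intCast_mem _ _
  refine ⟨![_, _], Fin.forall_fin_two.2 ⟨hs, ex_jN hN hs⟩, Fin.forall_fin_two.2 ⟨h1, fun n => ?_⟩⟩
  show (sb N hN _).coeff n ∈ _
  by_cases hd : (N : ℤ) ∣ n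
  · obtain ⟨k, rfl⟩ := hd
    rw [coeff_sb_mul]; exact h1 k
  · rw [coeff_sb_of_not_dvd _ _ _ _ hd]; exact zero_mem _

theorem rep {N : ℕ} (hN : 0 < N) {x : Mer} : x ∈ MF (Gamma0 N) ↔ ∃ P Q : MvPolynomial (Fin 2) ℂ,
    x = MvPolynomial.aeval ![jM, jN N hN] P / MvPolynomial.aeval ![jM, jN N hN] Q := by
  rw [gen N hN, ← IntermediateField.mem_adjoin_range_iff, Matrix.range_cons, Matrix.range_cons,
    Matrix.range_empty, Set.union_empty]
  rfl

/-- a coefficientwise projection -/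
def Lm (l : ℂ →ₗ[ℚ] ℚ) (z : LS) : LS :=
  HahnSeries.map z ((Rat.castHom ℂ).toAddMonoidHom.comp l.toAddMonoidHom)

theorem coeff_Lm (l : ℂ →ₗ[ℚ] ℚ) (z : LS) (n : ℤ) : (Lm l z).coeff n = l (z.coeff n) := rfl

theorem Lm_mul (l : ℂ →ₗ[ℚ] ℚ) {a : LS} (ha : RatS a) (z : LS) : Lm l (a * z) = a * Lm l z := by
  ext n
  have hs : (Lm l z).support ⊆ z.support := fun k hk h0 => hk (by
    rw [coeff_Lm, h0, map_zero, Rat.cast_zero])
  rw [coeff_Lm, HahnSeries.coeff_mul, HahnSeries.coeff_mul_right' z.isPWO_support hs, map_sum,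
    Rat.cast_sum]
  refine Finset.sum_congr rfl fun ij _ => ?_
  obtain ⟨b, hb⟩ := ha ij.1
  rw [hb, ← Rat.smul_def, map_smul, coeff_Lm, smul_eq_mul, Rat.cast_mul]

theorem Lm_aeval (l : ℂ →ₗ[ℚ] ℚ) {s : Fin 2 → LS} (h : ∀ i, s i ∈ CS ⊥)
    (P : MvPolynomial (Fin 2) ℂ) : ∃ (d : ℕ) (P' : MvPolynomial (Fin 2) ℤ), 0 < d ∧
      (d : LS) * Lm l (MvPolynomial.aeval s P) = MvPolynomial.aeval s P' := by
  induction P using MvPolynomial.induction_on' with
  | monomial u c =>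
    refine ⟨(l c).den, MvPolynomial.monomial u (l c).num, (l c).pos, ?_⟩
    have h1 := aeval_mem h (MvPolynomial.monomial u 1)
    rw [MvPolynomial.aeval_monomial, map_one, one_mul] at h1
    rw [MvPolynomial.aeval_monomial, MvPolynomial.aeval_monomial, mul_comm (algebraMap ℂ LS c),
      Lm_mul l fun n => by
        obtain ⟨z, hz⟩ := Subring.mem_bot.1 (h1 n)
        exact ⟨z, by rw [← hz]; simp⟩, mul_left_comm, mul_comm]
    congr 1
    have e : Lm l (algebraMap ℂ LS c) = algebraMap ℂ LS (l c) := by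
      ext n
      rw [coeff_Lm, algMap_ls, algMap_ls, HahnSeries.C_apply, HahnSeries.C_apply,
        HahnSeries.coeff_single, HahnSeries.coeff_single]
      split_ifs <;> simp
    rw [e, ← map_natCast (algebraMap ℂ LS), ← map_mul, eq_intCast, ← map_intCast (algebraMap ℂ LS)]
    congr 1
    exact_mod_cast Rat.den_mul_eq_num (l c)
  | add p q hp hq =>
    obtain ⟨d, P, hd, e⟩ := hp
    obtain ⟨d', Q, hd', e'⟩ := hq
    refine ⟨d * d', d' * P + d * Q, Nat.mul_pos hd hd', ?_⟩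
    have : ∀ x y, Lm l (x + y) = Lm l x + Lm l y := fun x y => by
      ext n
      simp only [coeff_Lm, HahnSeries.coeff_add, map_add, Rat.cast_add]
    simp only [map_add, map_mul, map_natCast, this, ← e, ← e', Nat.cast_mul]
    ring

end Gn

theorem conj_ex : CONJ := fun N hN x hx s hs σ => by
  obtain ⟨t, ht, hi⟩ := ex_js hN
  obtain ⟨P, Q, rfl⟩ := (rep hN).1 hx
  have key : ∀ P : MvPolynomial (Fin 2) ℂ, cm σ (MvPolynomial.aeval t P) =
      MvPolynomial.aeval t (MvPolynomial.map (σ : ℂ →+* ℂ) P) := fun P => by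
    induction P using MvPolynomial.induction_on with
    | C a => rw [MvPolynomial.map_C, MvPolynomial.aeval_C, MvPolynomial.aeval_C, algMap_ls,
        algMap_ls, cm_C]; rfl
    | add p q hp hq => simp only [map_add, hp, hq]
    | mul_X p i hp =>
      simp only [map_mul, hp, MvPolynomial.map_X, MvPolynomial.aeval_X]
      congr 1
      ext n
      obtain ⟨z, hz⟩ := Subring.mem_bot.1 (hi i n)
      rw [coeff_cm, ← hz, map_intCast]
  refine ⟨_, (rep hN).2 ⟨MvPolynomial.map (σ : ℂ →+* ℂ) P, MvPolynomial.map (σ : ℂ →+* ℂ) Q, rfl⟩,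
    ?_⟩
  rw [hs.unique one_ne_zero ((exM_aeval ht P).div one_ne_zero (exM_aeval ht Q)), map_div₀, key, key]
  exact (exM_aeval ht _).div one_ne_zero (exM_aeval ht _)

theorem rat : RAT := fun N hN x hx s hs hr => by
  obtain ⟨t, ht, hi⟩ := ex_js hN
  obtain ⟨P, Q, hP, e⟩ : ∃ P Q : MvPolynomial (Fin 2) ℤ, MvPolynomial.aeval t Q ≠ 0 ∧
      s * MvPolynomial.aeval t Q = MvPolynomial.aeval t P := by
    obtain ⟨P, Q, rfl⟩ := (rep hN).1 hx
    have e := hs.unique one_ne_zero ((exM_aeval ht P).div one_ne_zero (exM_aeval ht Q))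
    by_cases h0 : MvPolynomial.aeval t Q = 0
    · exact ⟨0, 1, by simp, by simp [e, h0]⟩
    obtain ⟨l, h1⟩ := Module.Projective.exists_dual_eq_one ℚ
      (HahnSeries.coeff_order_eq_zero.not.2 h0)
    obtain ⟨d, P', hd, e1⟩ := Lm_aeval l hi P
    obtain ⟨d', Q', hd', e2⟩ := Lm_aeval l hi Q
    have c0 : ∀ n : ℕ, 0 < n → (n : LS) ≠ 0 := fun n hn => by
      rw [← map_natCast (algebraMap ℂ LS)]
      exact (map_ne_zero _).2 (Nat.cast_ne_zero.2 hn.ne')
    refine ⟨d' * P', d * Q', ?_, ?_⟩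
    · rw [map_mul, map_natCast, ← e2]
      refine mul_ne_zero (c0 d hd) (mul_ne_zero (c0 d' hd') fun h => ?_)
      have := congrArg (fun z : LS => z.coeff (MvPolynomial.aeval t Q).order) h
      simp only [coeff_Lm, h1, Rat.cast_one, HahnSeries.coeff_zero] at this
      exact one_ne_zero this
    · have h3 := Lm_mul l hr (MvPolynomial.aeval t Q)
      rw [e, div_mul_cancel₀ _ h0, ← e] at h3
      rw [map_mul, map_mul, map_natCast, map_natCast, ← e1, ← e2, h3]
      ring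
  refine ⟨⟨P, Q, fun h => hP ((exM_aevalZ ht Q).unique one_ne_zero ?_), ?_⟩, ?_⟩
  · simpa [h] using ExM.const 1 0
  · exact Exp.inj (hs.mul (exM_aevalZ ht Q)) (e ▸ exM_aevalZ ht P)
  · obtain ⟨z, hz⟩ := Subring.mem_bot.1 (aeval_mem hi Q (MvPolynomial.aeval t Q).order)
    have z0 : (z : ℂ) ≠ 0 := hz ▸ HahnSeries.coeff_order_eq_zero.not.2 hP
    let A : Subring ℂ :=
      { carrier := {c | ∃ (k : ℕ) (y : ℤ), (z.natAbs : ℂ) ^ k * c = y}
        mul_mem' := fun ⟨k, y, h⟩ ⟨k', y', h'⟩ =>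
          ⟨k + k', y * y', by rw [Int.cast_mul, ← h, ← h']; ring⟩
        one_mem' := ⟨0, 1, by simp⟩
        add_mem' := fun ⟨k, y, h⟩ ⟨k', y', h'⟩ =>
          ⟨k + k', z.natAbs ^ k' * y + z.natAbs ^ k * y', by
            rw [Int.cast_add, Int.cast_mul, Int.cast_mul, ← h, ← h', Int.cast_pow, Int.cast_pow,
              Int.cast_natCast]; ring⟩
        zero_mem' := ⟨0, 0, by simp⟩
        neg_mem' := fun ⟨k, y, h⟩ => ⟨k, -y, by rw [Int.cast_neg, ← h]; ring⟩ }
    have hA : ∀ i, t i ∈ CS A := fun i n => bot_le (a := A) (hi i n)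
    refine ⟨z.natAbs, Int.natAbs_pos.2 (by exact_mod_cast z0), ?_⟩
    rw [eq_div_of_mul_eq hP e, div_eq_mul_inv]
    refine mul_mem (aeval_mem hA P) (inv_mem (aeval_mem hA Q) ⟨2, z, ?_⟩)
    rw [← hz, ← Int.cast_natCast, ← Int.cast_pow, Int.natAbs_sq, Int.cast_pow]
    field_simp

end Vale.Agent.P004Z.EF
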